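import Vale.Agent.P092.H796.Wd2
import Vale.Agent.P092.H370.Fo5

/-!
P092, TEAM P, stage CL-O (helper541): port of helper796's Wd2 to the forms of every kind (`Fo` of
helper370).
-/

set_option linter.all false

open TopologicalSpace Topology Module Set Filter
open scoped Matrix

namespace Vale.Agent.P092.H541.Wd

open Vale.Agent.P092.H303 (FormGroup)
open Vale.Agent.P092.H370.Po hiding sing_sup_span exists_prod exists_inc_ge exists_above
open Vale.Agent.P092.H370.Fo (Fo Wf ort_symm sing_sup_span exists_prod exists_inc_ge exists_above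
  le_finrank_perp)
open Vale.Agent.P092.H714.Cl
open Vale.Agent.P092.H702.PG (sup_eq ort_join)
open Vale.Agent.P092.H100.Gr (Gr)
open Vale.Agent.P092.H677 (sm ev_sm ev_sub)
open Vale.Agent.P092.H796 (Ind pt pt_S mem_pt exists_vec col_pt ind_zero iSup_cons finrank_iSup_le
  ind_cons ind_cons_of exists_inf ind_open ev_ind plane1 PlS PlS_closed succ_le)

section alg

variable {n : Type} [Fintype n] [DecidableEq n] {k : Type} [Field k]
  {σ : k →+* k} {ε : k} {J : Matrix n n k} {i j l m : ℕ}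

/-- a maximal singular space contains the singular vectors orthogonal to it -/
theorem mem_of_maxF (hF : Fo σ ε J) {r : ℕ} (hW : WI σ J r) (N : SGr σ J r) {v : n → k}
    (hvv : hf σ J v v = 0) (hp : ∀ x ∈ N.S, hf σ J x v = 0) : v ∈ N.S := by
  by_contra hv
  have h1 := hW.2 _ (sing_sup_span hF N.sing hvv hp)
  rw [finrank_sup_span hv, N.dim] at h1
  omega

/-- the dimension of the orthogonal space, the other inequality -/
theorem perp_leF (hF : Fo σ ε J) (X : Submodule k (n → k)) :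
    finrank k X + finrank k (perp σ J X) ≤ Fintype.card n := by
  classical
  let b := Module.finBasis k X
  let L : (n → k) →ₗ[k] (Fin (finrank k X) → k) :=
    LinearMap.pi fun i =>
      { toFun := fun v => hf σ J v (b i).1
        map_add' := fun v w => hf_add_left σ J v w _
        map_smul' := fun c v => by rw [hf_smul_left]; rfl }
  have hker : perp σ J X ≤ LinearMap.ker L := by
    intro v hv
    rw [LinearMap.mem_ker]
    ext i
    exact hF.fm.symm0 (hv _ (b i).2)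
  have hsur : LinearMap.range L = ⊤ := by
    rw [LinearMap.range_eq_top]
    intro c
    obtain ⟨v, hv⟩ := exists_prod hF X (b.constr k fun i => σ (ε * c i))
    refine ⟨v, ?_⟩
    ext i
    change hf σ J v (b i).1 = c i
    rw [hF.fm.herm (b i).1 v, hv (b i), Basis.constr_basis, hF.fm.inv, ← mul_assoc, hF.fm.eps,
      one_mul]
  have h1 := LinearMap.finrank_range_add_finrank_ker L
  rw [hsur, finrank_top, finrank_fin_fun, finrank_fintype_fun_eq_card] at h1
  have h3 := Submodule.finrank_mono hker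
  omega

/-- **hyperbolic spaces are spanned by isotropic vectors** -/
theorem span_isoF (hF : Fo σ ε J) {U T : Submodule k (n → k)} {e e' : n → k} (he : e ∈ U)
    (he' : e' ∈ U) (hee : hf σ J e e = 0) (hee' : hf σ J e' e' = 0) (hne : hf σ J e e' ≠ 0)
    (hT : ∀ v ∈ U, hf σ J v v = 0 → v ∈ T) : U ≤ T := by
  have key : ∀ u ∈ U, hf σ J e u ≠ 0 → u ∈ T := by
    intro u hu h
    obtain ⟨α, hα⟩ := hF.fm.corr hee (y := u) h
    have h1 := hT (u + α • e) (U.add_mem hu (U.smul_mem _ he)) hα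
    have h2 : u = (u + α • e) - α • e := by abel
    rw [h2]
    exact T.sub_mem h1 (T.smul_mem _ (hT e he hee))
  intro u hu
  by_cases h : hf σ J e u = 0
  · have h1 := key (u + e') (U.add_mem hu he') (by rw [hf_add_right, h, zero_add]; exact hne)
    have h2 : u = (u + e') - e' := by abel
    rw [h2]
    exact T.sub_mem h1 (hT e' he' hee')
  · exact key u hu h

/-- an isotropic point orthogonal to `Z` and not to `p` -/
theorem exists_testF (hF : Fo σ ε J) {Z : Submodule k (n → k)} {a a' p : SGr σ J 1}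
    (ha : Ort σ J Z a.S) (ha' : Ort σ J Z a'.S) (haa : ¬ Col a a') (hp : ¬ p.S ≤ Z) :
    ∃ q : SGr σ J 1, Ort σ J Z q.S ∧ ¬ Col p q := by
  obtain ⟨e, e0, he, hae⟩ := exists_vec a
  obtain ⟨e', e0', he', hae'⟩ := exists_vec a'
  obtain ⟨v, v0, hv, hpv⟩ := exists_vec p
  rw [hpv, Submodule.span_singleton_le_iff_mem] at hp
  have hvX : v ∈ Z ⊔ Submodule.span k {v} :=
    (le_sup_right : Submodule.span k {v} ≤ _) (Submodule.mem_span_singleton_self v)
  obtain ⟨φ, hφ1, hφ0⟩ := exists_functional (X := Z ⊔ Submodule.span k {v}) (H := Z)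
    le_sup_left hvX hp
  obtain ⟨y, hy⟩ := exists_prod hF _ φ
  by_contra hcon
  push Not at hcon
  have h1 : perp σ J Z ≤ perp σ J p.S := by
    refine span_isoF hF (e := e) (e' := e') ?_ ?_ he he' ?_ ?_
    · exact fun x hx => ha x hx e (by rw [hae]; exact Submodule.mem_span_singleton_self e)
    · exact fun x hx => ha' x hx e' (by rw [hae']; exact Submodule.mem_span_singleton_self e')
    · intro h
      refine haa ?_
      unfold Col
      rw [hae, hae', ort_span_left]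
      intro w hw
      obtain ⟨c, rfl⟩ := Submodule.mem_span_singleton.1 hw
      rw [hf_smul_right, h, mul_zero]
    · intro w hw hww
      by_cases w0 : w = 0
      · rw [w0]; exact Submodule.zero_mem _
      have h2 := hcon (pt w w0 hww) (ort_span_right.2 hw)
      exact (col_pt w0 hww).1 h2
  have h2 : y ∈ perp σ J Z := fun x hx => by
    rw [hy ⟨x, le_sup_left (a := Z) hx⟩, hφ0 _ hx]
  have h3 := h1 h2 v (by rw [hpv]; exact Submodule.mem_span_singleton_self v)
  rw [hy ⟨v, hvX⟩, hφ1] at h3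
  exact one_ne_zero h3

/-- a hyperbolic pair orthogonal to an opposite pair -/
theorem exists_hypF (hF : Fo σ ε J) (Y₀ : SGr σ J 2) {a a' : SGr σ J 1} (haa : ¬ Col a a') :
    ∃ e e' : n → k, e ∈ perp σ J (a.S ⊔ a'.S) ∧ e' ∈ perp σ J (a.S ⊔ a'.S) ∧
      hf σ J e e = 0 ∧ hf σ J e' e' = 0 ∧ hf σ J e e' ≠ 0 := by
  obtain ⟨Y, hY⟩ := exists_inc_ge hF (i := 1) (l := 2) (j := 2) (by omega) le_rfl a Y₀
  obtain ⟨u, u0, hu, hau⟩ := exists_vec a
  obtain ⟨u', u0', hu', hau'⟩ := exists_vec a'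
  have huu : hf σ J u u' ≠ 0 := by
    intro h
    refine haa ?_
    unfold Col
    rw [hau, hau', ort_span_left]
    intro w hw
    obtain ⟨c, rfl⟩ := Submodule.mem_span_singleton.1 hw
    rw [hf_smul_right, h, mul_zero]
  have huY : u ∈ Y.S := hY (by rw [hau]; exact Submodule.mem_span_singleton_self u)
  -- the foot
  obtain ⟨e, heY, he0, heu'⟩ : ∃ e ∈ Y.S, e ≠ 0 ∧ hf σ J e u' = 0 := by
    obtain ⟨c, hc, hce⟩ := exists_gen hY a.dim Y.dim
    have hcY : c ∈ Y.S := by
      rw [hce]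
      exact (le_sup_right : Submodule.span k {c} ≤ _) (Submodule.mem_span_singleton_self c)
    refine ⟨c + (-(hf σ J c u' * (hf σ J u u')⁻¹)) • u, Y.S.add_mem hcY (Y.S.smul_mem _ huY), ?_,
      ?_⟩
    · intro h0
      refine hc ?_
      have : c = (hf σ J c u' * (hf σ J u u')⁻¹) • u := by
        rw [neg_smul] at h0
        exact add_neg_eq_zero.1 h0
      rw [this, hau]
      exact Submodule.smul_mem _ _ (Submodule.mem_span_singleton_self u)
    · rw [hf_add_left, hf_smul_left, neg_mul, mul_assoc, inv_mul_cancel₀ huu, mul_one,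
        add_neg_cancel]
  have hee : hf σ J e e = 0 := Y.sing.zero heY
  have heu : hf σ J e u = 0 := Y.sing e heY u huY
  have hue : hf σ J u e = 0 := hF.fm.symm0 heu
  have hue' : hf σ J u' e = 0 := hF.fm.symm0 heu'
  have hperp : ∀ w, hf σ J u w = 0 → hf σ J u' w = 0 → w ∈ perp σ J (a.S ⊔ a'.S) := by
    intro w h1 h2 x hx
    rw [hau, hau'] at hx
    obtain ⟨x1, hx1, x2, hx2, rfl⟩ := Submodule.mem_sup.1 hx
    obtain ⟨c, rfl⟩ := Submodule.mem_span_singleton.1 hx1
    obtain ⟨d, rfl⟩ := Submodule.mem_span_singleton.1 hx2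
    rw [hf_add_left, hf_smul_left, hf_smul_left, h1, h2, mul_zero, mul_zero, add_zero]
  have hen : e ∉ a.S ⊔ a'.S := by
    intro hx
    rw [hau, hau'] at hx
    obtain ⟨x1, hx1, x2, hx2, hxe⟩ := Submodule.mem_sup.1 hx
    obtain ⟨c, rfl⟩ := Submodule.mem_span_singleton.1 hx1
    obtain ⟨d, rfl⟩ := Submodule.mem_span_singleton.1 hx2
    have hc : c = 0 := by
      have h1 : hf σ J (c • u + d • u') u' = 0 := by rw [hxe]; exact heu'
      rw [hf_add_left, hf_smul_left, hf_smul_left, hu', mul_zero, add_zero] at h1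
      exact (mul_eq_zero.1 h1).resolve_right huu
    have hd : d = 0 := by
      have h1 : hf σ J (c • u + d • u') u = 0 := by rw [hxe]; exact heu
      rw [hf_add_left, hf_smul_left, hf_smul_left, hu, mul_zero, zero_add] at h1
      refine (mul_eq_zero.1 h1).resolve_right fun h2 => huu (hF.fm.symm0 h2)
    rw [hc, hd, zero_smul, zero_smul, add_zero] at hxe
    exact he0 hxe.symm
  have heX : e ∈ (a.S ⊔ a'.S) ⊔ Submodule.span k {e} :=
    (le_sup_right : Submodule.span k {e} ≤ _) (Submodule.mem_span_singleton_self e)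
  obtain ⟨φ, hφ1, hφ0⟩ := exists_functional (X := (a.S ⊔ a'.S) ⊔ Submodule.span k {e})
    (H := a.S ⊔ a'.S) le_sup_left heX hen
  obtain ⟨y, hy⟩ := exists_prod hF _ φ
  have hey : hf σ J e y = 1 := by rw [hy ⟨e, heX⟩, hφ1]
  have hym : y ∈ perp σ J (a.S ⊔ a'.S) := fun x hx => by
    rw [hy ⟨x, le_sup_left (a := a.S ⊔ a'.S) hx⟩, hφ0 _ hx]
  obtain ⟨α, hα⟩ := hF.fm.corr hee (y := y) (by rw [hey]; exact one_ne_zero)
  have hem : e ∈ perp σ J (a.S ⊔ a'.S) := hperp e hue hue'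
  refine ⟨e, y + α • e, hem, Submodule.add_mem _ hym (Submodule.smul_mem _ _ hem), hee, hα, ?_⟩
  rw [hf_add_right, hf_smul_right, hee, mul_zero, add_zero, hey]
  exact one_ne_zero

/-- **independent isotropic points orthogonal to an opposite pair** -/
theorem exists_basis_perpF (hF : Fo σ ε J) (Y₀ : SGr σ J 2) {a a' : SGr σ J 1}
    (haa : ¬ Col a a') : ∀ m, m + 2 ≤ Fintype.card n →
    ∃ z : Fin m → SGr σ J 1, Ind z ∧ (∀ i, Col (z i) a) ∧ ∀ i, Col (z i) a' := by
  intro m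
  induction m with
  | zero => exact fun _ => ⟨Fin.elim0, ind_zero _, fun i => i.elim0, fun i => i.elim0⟩
  | succ m ih =>
    intro hm
    obtain ⟨z, hz, h1, h2⟩ := ih (by omega)
    obtain ⟨e, e', he, he', hee, hee', hne⟩ := exists_hypF hF Y₀ haa
    by_contra hcon
    have hle : perp σ J (a.S ⊔ a'.S) ≤ ⨆ i, (z i).S := by
      refine span_isoF hF he he' hee hee' hne fun v hv hvv => ?_
      by_contra hvz
      have v0 : v ≠ 0 := fun h => hvz (by rw [h]; exact Submodule.zero_mem _)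
      refine hcon ⟨Fin.cons (pt v v0 hvv) z, ind_cons.2 ⟨hz, ?_⟩, fun i => ?_, fun i => ?_⟩
      · rw [pt_S, Submodule.span_singleton_le_iff_mem]
        exact hvz
      · refine Fin.cases ?_ (fun i => ?_) i
        · exact ort_symm hF ((col_pt v0 hvv).2 fun x hx => hv x (Submodule.mem_sup_left hx))
        · exact h1 i
      · refine Fin.cases ?_ (fun i => ?_) i
        · exact ort_symm hF ((col_pt v0 hvv).2 fun x hx => hv x (Submodule.mem_sup_right hx))
        · exact h2 i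
    have h3 := Submodule.finrank_mono hle
    have h4 := finrank_iSup_le z
    have h5 := le_finrank_perp hF.fm (a.S ⊔ a'.S)
    have h6 := Submodule.finrank_add_le_finrank_add_finrank a.S a'.S
    rw [a.dim, a'.dim] at h6
    omega

/-- the hyperplane `X ∩ b^⊥` -/
theorem exists_hyperF (X : SGr σ J (j + 1)) (b : SGr σ J 1) :
    ∃ X₀ : SGr σ J j, Inc X₀ X ∧ Col X₀ b := by
  obtain ⟨v, v0, hv, hbv⟩ := exists_vec b
  let φ : X.S →ₗ[k] k :=
    { toFun := fun w => hf σ J w.1 v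
      map_add' := fun w w' => hf_add_left σ J w.1 w'.1 v
      map_smul' := fun c w => hf_smul_left σ J c w.1 v }
  set Z : Submodule k (n → k) := (LinearMap.ker φ).map X.S.subtype with hZ
  have hZl : Z ≤ X.S := by
    rintro _ ⟨v, -, rfl⟩
    exact v.2
  have hZb : ∀ w ∈ Z, hf σ J w v = 0 := by
    rintro _ ⟨w, hw, rfl⟩
    exact hw
  have hZd : j ≤ finrank k Z := by
    have h1 := LinearMap.finrank_range_add_finrank_ker φ
    have h2 : finrank k (LinearMap.range φ) ≤ 1 := by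
      have := Submodule.finrank_le (LinearMap.range φ)
      rwa [finrank_self] at this
    have h3 : finrank k Z = finrank k (LinearMap.ker φ) :=
      (Submodule.equivMapOfInjective _ X.S.injective_subtype _).finrank_eq.symm
    have h4 : finrank k X.S = j + 1 := X.dim
    omega
  obtain ⟨Z', hZ', hd⟩ := exists_sub hZd
  refine ⟨SGr.mk' Z' (X.sing.mono (hZ'.trans hZl)) hd, hZ'.trans hZl, ?_⟩
  unfold Col
  rw [SGr.mk'_S, hbv, ort_span_right]
  exact fun w hw => hZb w (hZ' hw)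

/-- two orthogonal singular spaces lie in a common maximal one -/
theorem exists_maxF (hF : Fo σ ε J) {r : ℕ} (hW : WI σ J r) {X : SGr σ J i} {Y : SGr σ J j}
    (h : Col X Y) : ∃ N : SGr σ J r, Inc X N ∧ Inc Y N := by
  obtain ⟨⟨Y₀, hY₀, hd⟩, hr⟩ := hW
  have hs : Sing σ J (X.S ⊔ Y.S) :=
    ort_sup_left.2 ⟨ort_sup_right.2 ⟨X.sing, h⟩, ort_sup_right.2 ⟨ort_symm hF h, Y.sing⟩⟩
  obtain ⟨Z, h1, h2, h3⟩ := exists_above hF hs hY₀ (j := r) (hr _ hs) (by rw [hd])
  exact ⟨SGr.mk' Z h2 h3, le_sup_left.trans h1, le_sup_right.trans h1⟩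

/-- two points of a maximal space not orthogonal to `b` -/
theorem exists_two_oppF (hF : Fo σ ε J) {r : ℕ} (hr : 2 ≤ r) (hW : WI σ J r) {M : SGr σ J r}
    {b : SGr σ J 1} (hb : ¬ Inc b M) :
    ∃ b₀ b₁ : SGr σ J 1, b₀ ≠ b₁ ∧ Inc b₀ M ∧ Inc b₁ M ∧ ¬ Col b₀ b ∧ ¬ Col b₁ b := by
  obtain ⟨s, rfl⟩ : ∃ s, r = s + 1 := ⟨r - 1, by omega⟩
  obtain ⟨v, v0, hv, hbv⟩ := exists_vec b
  obtain ⟨H, hH, hHb⟩ := exists_hyperF M b
  obtain ⟨u, huM, hu⟩ : ∃ u ∈ M.S, hf σ J u v ≠ 0 := by
    by_contra hcon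
    push Not at hcon
    refine hb ?_
    change b.S ≤ M.S
    rw [hbv, Submodule.span_singleton_le_iff_mem]
    exact mem_of_maxF hF hW M hv hcon
  obtain ⟨w, hw⟩ : ∃ w : H.S, w ≠ 0 := by
    haveI := Module.nontrivial_of_finrank_pos (R := k) (M := H.S) (by rw [H.dim]; omega)
    exact exists_ne 0
  have hwM : w.1 ∈ M.S := hH w.2
  have hw0 : w.1 ≠ 0 := fun h => hw (Subtype.ext h)
  have hwv : hf σ J w.1 v = 0 := hHb w.1 w.2 v (by
    rw [hbv]; exact Submodule.mem_span_singleton_self v)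
  have huwM : u + w.1 ∈ M.S := M.S.add_mem huM hwM
  have huw : hf σ J (u + w.1) v ≠ 0 := by rw [hf_add_left, hwv, add_zero]; exact hu
  have u0 : u ≠ 0 := fun h => hu (by rw [h]; exact hf_zero_left σ J v)
  have uw0 : u + w.1 ≠ 0 := fun h => huw (by rw [h]; exact hf_zero_left σ J v)
  have hno : ∀ x, (x0 : x ≠ 0) → (hx : hf σ J x x = 0) → hf σ J x v ≠ 0 →
      ¬ Col (pt x x0 hx) b := fun x x0 hx h hc => h (hc x (mem_pt x x0 hx) v (by
        rw [hbv]; exact Submodule.mem_span_singleton_self v))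
  refine ⟨pt u u0 (M.sing.zero huM), pt (u + w.1) uw0 (M.sing.zero huwM), fun h => ?_,
    (Submodule.span_singleton_le_iff_mem _ _).2 huM,
    (Submodule.span_singleton_le_iff_mem _ _).2 huwM, hno _ _ _ hu, hno _ _ _ huw⟩
  have h1 : u + w.1 ∈ (pt u u0 (M.sing.zero huM)).S := by rw [h]; exact mem_pt _ _ _
  obtain ⟨c, hc⟩ := Submodule.mem_span_singleton.1 h1
  have h2 : w.1 = (c - 1) • u := by rw [sub_smul, one_smul, hc]; abel
  have h3 : (c - 1) * hf σ J u v = 0 := by rw [← hf_smul_left, ← h2, hwv]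
  have h4 : c - 1 = 0 := (mul_eq_zero.1 h3).resolve_right hu
  exact hw0 (by rw [h2, h4, zero_smul])

end alg

section tgt

variable {n : Type} [Fintype n] [DecidableEq n] {k : Type} [NontriviallyNormedField k]
  [ProperSpace k] {σ : k →+* k} {ε : k} {J : Matrix n n k} {j m : ℕ}

/-- a plane spanned by two orthogonal singular spaces is singular -/
theorem sing_planeF (hF : Fo σ ε J) {x y : SGr σ J j} (hne : x ≠ y) {W : Gr k n (j + 1)}
    (h1 : x.S ≤ W.1) (h2 : y.S ≤ W.1) (h : Col x y) : Sing σ J W.1 := by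
  rw [← plane1 hne h1 h2]
  exact ort_sup_left.2 ⟨ort_sup_right.2 ⟨x.sing, h⟩, ort_sup_right.2 ⟨ort_symm hF h, y.sing⟩⟩

theorem pls_twoF (hF : Fo σ ε J) {x₁ x₂ x x' : SGr σ J j} (hx : x₁ ≠ x₂) (hx' : x ≠ x')
    (h1 : PlS x₁ x₂ x) (h2 : PlS x₁ x₂ x') (h : Col x x') : Col x₁ x₂ := by
  obtain ⟨W, a1, a2, a3⟩ := h1
  obtain ⟨W', b1, b2, b3⟩ := h2
  have e1 := plane1 hx a1 a2
  have e2 := plane1 hx b1 b2
  rw [← e2, e1] at b3
  exact Ort.mono (sing_planeF hF hx' a3 b3 h) a1 a2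

theorem pls_isoF (hF : Fo σ ε J) {x₁ x₂ x : SGr σ J j} (hx : x₁ ≠ x₂) (h1 : PlS x₁ x₂ x)
    (h : Col x₁ x₂) : Col x x₁ ∧ Col x x₂ := by
  obtain ⟨W, a1, a2, a3⟩ := h1
  have hs := sing_planeF hF hx a1 a2 h
  exact ⟨Ort.mono hs a3 a1, Ort.mono hs a3 a2⟩

/-- three points orthogonal to `card n - 2` independent points are in a plane -/
theorem pls_of_indF (hF : Fo σ ε J) (hm : Fintype.card n ≤ m + 2) {z : Fin m → SGr σ J 1}
    (hz : Ind z) {x₁ x₂ x : SGr σ J 1} (hne : x₁ ≠ x₂) (h1 : ∀ i, Col (z i) x₁)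
    (h2 : ∀ i, Col (z i) x₂) (h3 : ∀ i, Col (z i) x) : PlS x₁ x₂ x := by
  have hle : ∀ y : SGr σ J 1, (∀ i, Col (z i) y) → y.S ≤ perp σ J (⨆ i, (z i).S) := by
    intro y hy
    rw [← ort_iff_le_perp]
    intro v hv w hw
    induction hv using Submodule.iSup_induction' with
    | mem i v hv => exact hy i v hv w hw
    | zero => exact hf_zero_left σ J w
    | add u v _ _ hu hv => rw [hf_add_left, hu, hv, add_zero]
  have e1 := Submodule.finrank_mono (sup_le (sup_le (hle x₁ h1) (hle x₂ h2)) (hle x h3))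
  have e2 := perp_leF hF (⨆ i, (z i).S)
  have e3 : m ≤ finrank k ↥(⨆ i, (z i).S) := hz
  have e4 : 1 + 1 ≤ finrank k ↥(x₁.S ⊔ x₂.S ⊔ x.S) :=
    (succ_le hne).trans (Submodule.finrank_mono le_sup_left)
  refine ⟨(⟨x₁.S ⊔ x₂.S ⊔ x.S, by omega⟩ : Gr k n (1 + 1)), ?_, ?_, ?_⟩
  · exact (le_sup_left.trans le_sup_left : x₁.S ≤ x₁.S ⊔ x₂.S ⊔ x.S)
  · exact (le_sup_right.trans le_sup_left : x₂.S ≤ x₁.S ⊔ x₂.S ⊔ x.S)
  · exact (le_sup_right : x.S ≤ x₁.S ⊔ x₂.S ⊔ x.S)

end tgt

end Vale.Agent.P092.H541.Wd
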