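import Vale.Agent.P092.H796.Wd4
import Vale.Agent.P092.H541.Wd.W2

/-!
P092, TEAM P, stage CL-O (helper541): port of helper796's Wd3 (and of helper702's `join_of_col`,
`eq_of_col_max`) to the forms of every kind (`Fo` of helper370). The definitions (`EP`, `NP`,
`PolH`, ..) are helper796's, unchanged.
-/

set_option linter.all false

open TopologicalSpace Topology Module Set Filter
open scoped Matrix

namespace Vale.Agent.P092.H541.Wd

open Vale.Agent.P092.H303 (FormGroup)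
open Vale.Agent.P092.H370.Po hiding sing_sup_span exists_prod exists_inc_ge exists_above
  exists_extend exists_iso_prod
open Vale.Agent.P092.H370.Fo (Fo Wf ort_symm sing_sup_span exists_prod exists_inc_ge exists_above
  le_finrank_perp exists_extend exists_iso_prod)
open Vale.Agent.P092.H714.Cl
open Vale.Agent.P092.H218 (mul_ap)
open Vale.Agent.P092.H232 (Nin split_inc two_ind)
open Vale.Agent.P092.H702.PG (sup_eq ort_join)
open Vale.Agent.P092.H702.Pol (Adj exists_two)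
open Vale.Agent.P092.H100.Gr (Gr)
open Vale.Agent.P092.H677 (sm ev_sm ev_sub ind2 nin_ev)
open Vale.Agent.P092.H831 (ts_star tot_vec join_comm comm_self')
open Vale.Agent.P092.H796 (EP ep_self ep_mono ep_join PolH ep_down ep_inc of_pts_loc NP exists_inf)

section alg

variable {n : Type} [Fintype n] [DecidableEq n] {k : Type} [Field k]
  {σ : k →+* k} {ε : k} {J : Matrix n n k} {i j l m : ℕ}

/-- orthogonal maximal spaces are equal -/
theorem eq_of_col_maxF (hF : Fo σ ε J) {r : ℕ} (hW : WI σ J r) {x y : SGr σ J r}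
    (h : Col x y) : x = y := by
  have hs : Sing σ J (x.S ⊔ y.S) :=
    ort_sup_left.2 ⟨ort_sup_right.2 ⟨x.sing, h⟩, ort_sup_right.2 ⟨ort_symm hF h, y.sing⟩⟩
  have h1 : finrank k ↥(x.S ⊔ y.S) ≤ r := hW.2 _ hs
  have h2 : x.S = x.S ⊔ y.S := Submodule.eq_of_le_of_finrank_le le_sup_left (by rw [x.dim]; exact h1)
  have h3 : y.S ≤ x.S := by rw [h2]; exact le_sup_right
  exact (SGr.eq_of_le (X := y) (Y := x) h3).symm

/-- orthogonal different `j`-spaces with a common `(j-1)`-space span a singular `(j+1)`-space -/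
theorem join_of_colF (hF : Fo σ ε J) {x y : SGr σ J (j + 1)} {a : SGr σ J j} (hne : x ≠ y)
    (hx : Inc a x) (hy : Inc a y) (h : Col x y) :
    ∃ z : SGr σ J (j + 1 + 1), Inc x z ∧ Inc y z := by
  have hs : Sing σ J (x.S ⊔ y.S) :=
    ort_sup_left.2 ⟨ort_sup_right.2 ⟨x.sing, h⟩, ort_sup_right.2 ⟨ort_symm hF h, y.sing⟩⟩
  have h1 : j ≤ finrank k ↥(x.S ⊓ y.S) :=
    a.dim.symm.trans_le (Submodule.finrank_mono (le_inf hx hy))
  have h2 : finrank k ↥(x.S ⊓ y.S) < j + 1 := by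
    by_contra hcon
    have h3 : finrank k ↥(x.S ⊓ y.S) = finrank k x.S := by
      refine le_antisymm (Submodule.finrank_mono inf_le_left) ?_
      rw [x.dim]
      omega
    have h4 : x.S ⊓ y.S = x.S := Submodule.eq_of_le_of_finrank_eq inf_le_left h3
    exact hne (SGr.eq_of_le (X := x) (Y := y) (inf_eq_left.1 h4))
  have h3 := Submodule.finrank_sup_add_finrank_inf_eq x.S y.S
  rw [x.dim, y.dim] at h3
  exact ⟨SGr.mk' (x.S ⊔ y.S) hs (by omega), le_sup_left, le_sup_right⟩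

end alg

variable {n n' : Type} [Fintype n] [DecidableEq n] [Fintype n'] [DecidableEq n']
  {k : Type} [Field k] {σ : k →+* k} {ε : k} {J : Matrix n n k}
  {k' : Type} [NontriviallyNormedField k'] [ProperSpace k'] {σ' : k' →+* k'}
  [Fact (Continuous σ')] {ε' : k'} {J' : Matrix n' n' k'}
  {K : Type} [NormedAddCommGroup K] [InnerProductSpace ℂ K] [CompleteSpace K] {i j l r : ℕ}
  {G : ∀ j, SGr σ J j → (C(SGr σ' J' j, ℂ) →⋆ₐ[ℂ] (K →L[ℂ] K))}

theorem ep_symmF (hF' : Fo σ' ε' J') {φ : C(SGr σ' J' i, ℂ) →⋆ₐ[ℂ] (K →L[ℂ] K)}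
    {τ : C(SGr σ' J' j, ℂ) →⋆ₐ[ℂ] (K →L[ℂ] K)} (h : EP φ τ) : EP τ φ := by
  intro a t hn
  have h1 := congrArg star (h (star t) (star a) fun x hx y hy hxy => by
    rw [ts_star] at hx hy
    exact hn y hy x hx (ort_symm hF' hxy))
  simpa only [star_mul, map_star, star_star, star_zero] using h1

/-- orthogonal singular spaces have orthogonal values -/
theorem ep_colF (hσ : Continuous σ') (hF : Fo σ ε J) (hW : WI σ J r) (hF' : Fo σ' ε' J')
    (hH : PolH r G) (h1 : 1 ≤ i) (h2 : 1 ≤ j) {X : SGr σ J i} {Z : SGr σ J j} (h : Col X Z) :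
    EP (G i X) (G j Z) := by
  obtain ⟨N, hX, hZ⟩ := exists_maxF hF hW h
  exact ep_down hσ hH (r - i) i r (by have := hX.le; omega) h1 le_rfl X N hX
    (ep_symmF hF' (ep_inc hσ hH h2 le_rfl hZ))

/-- collinear points commute -/
theorem comm_ptsF (hF : Fo σ ε J) (hr : 2 ≤ r) (hH : PolH r G) {x y : SGr σ J 1} (h : Col x y)
    (f g) : Commute (G 1 x f) (G 1 y g) := by
  by_cases hxy : x = y
  · rw [hxy]
    exact comm_self' _ _ _
  · obtain ⟨z, h1, h2⟩ := join_of_colF (j := 0)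
      (a := SGr.mk' (σ := σ) (J := J) ⊥ sing_bot (finrank_bot k (n → k))) hF hxy bot_le bot_le h
    exact (hH.col 1 le_rfl (by omega) x y z hxy h1 h2).com f g

/-- generation by a point `bt` and the subspaces orthogonal to `b` -/
theorem join_oppF (hF : Fo σ ε J) (hH : PolH r G) {b bt : SGr σ J 1} (hb : ¬ Col bt b)
    {W : K →L[ℂ] K} (ht : ∀ u, Commute W (G 1 bt u)) :
    ∀ j, 1 ≤ j → j ≤ r → ∀ X : SGr σ J j, Inc bt X →
      (∀ p : SGr σ J 1, Inc p X → Col p b → ∀ f, Commute W (G 1 p f)) →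
      ∀ f, Commute W (G j X f) := by
  intro j h1
  induction j, h1 using Nat.le_induction with
  | base =>
    intro _ X hX _ f
    rw [← inc_iff_eq.1 hX]
    exact ht f
  | succ j h1 ih =>
    intro h2 X hX h f
    obtain ⟨X₀, hX₀, hX₀b⟩ := exists_hyperF X b
    obtain ⟨X₁, hbX₁, hX₁⟩ := exists_inc_between (l := j) h1 (Nat.le_succ j) hX
    have hne : X₀ ≠ X₁ := by
      rintro rfl
      exact hb (Ort.mono hX₀b hbX₁ le_rfl)
    have c := hH.col j h1 (by omega) X₀ X₁ X hne hX₀ hX₁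
    have f₁ := hH.flg j h1 (by omega) X₀ X hX₀
    have f₂ := hH.flg j h1 (by omega) X₁ X hX₁
    exact join_comm inc_closed (fun x x' y y' hne a1 a2 a3 a4 => H702.PG.uniq hne a1 a2 a3 a4)
      _ _ _ c.com f₁.com f₂.com f₁.inc f₂.inc c.agr W
      (fun u => of_pts_loc hH j h1 (by omega) X₀
        (fun p hp => h p (hp.trans hX₀) (Ort.mono hX₀b hp le_rfl)) u)
      (fun u => ih (by omega) X₁ hbX₁ (fun p hp => h p (hp.trans hX₁)) u) f

/-- **opposite points are nowhere orthogonal** -/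
theorem np_ofF (hσ : Continuous σ') (hF : Fo σ ε J) (hW : WI σ J r) (hF' : Fo σ' ε' J')
    (hW' : WI σ' J' r) (hr : 2 ≤ r) (hH : PolH r G) {b b' : SGr σ J 1} (hbb : ¬ Col b b')
    (zo : EP (G 1 b) (G 1 b') ∨ NP (G 1 b) (G 1 b')) : NP (G 1 b) (G 1 b') := by
  rcases zo with hE | hN
  swap
  · exact hN
  obtain ⟨M, hM, -⟩ := exists_maxF hF hW (X := b') (Y := b') b'.sing
  have hbM : ¬ Inc b M := fun h => hbb fun x hx y hy => M.sing x (h hx) y (hM hy)
  have s1 : ∀ j, 1 ≤ j → j ≤ r → ∀ X : SGr σ J j, Inc b' X → EP (G j X) (G 1 b) := by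
    intro j h1
    induction j, h1 using Nat.le_induction with
    | base =>
      intro _ X hX
      rw [← inc_iff_eq.1 hX]
      exact ep_symmF hF' hE
    | succ j h1 ih =>
      intro h2 X hX
      obtain ⟨X₀, hX₀, hX₀b⟩ := exists_hyperF X b
      obtain ⟨X₁, hbX₁, hX₁⟩ := exists_inc_between (l := j) h1 (Nat.le_succ j) hX
      have hne : X₀ ≠ X₁ := by
        rintro rfl
        exact hbb (ort_symm hF (Ort.mono hX₀b hbX₁ le_rfl))
      exact ep_join hσ (hH.col j h1 (by omega) X₀ X₁ X hne hX₀ hX₁)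
        (hH.flg j h1 (by omega) X₀ X hX₀) (hH.flg j h1 (by omega) X₁ X hX₁)
        (ep_colF hσ hF hW hF' hH h1 le_rfl hX₀b) (ih (by omega) X₁ hbX₁)
  have s2 : EP (G 1 b) (G r M) := ep_symmF hF' (s1 r (by omega) le_rfl M hM)
  obtain ⟨s, rfl⟩ : ∃ s, r = s + 1 := ⟨r - 1, by omega⟩
  obtain ⟨H, hH₁, hHb⟩ := exists_hyperF M b
  obtain ⟨N, hHN, hbN⟩ := exists_maxF hF hW hHb
  have s3 : ∀ j, 1 ≤ j → j ≤ s + 1 → ∀ X : SGr σ J j, Inc b X → Inc X N →
      EP (G j X) (G (s + 1) M) := by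
    intro j h1
    induction j, h1 using Nat.le_induction with
    | base =>
      intro _ X hX _
      rw [← inc_iff_eq.1 hX]
      exact s2
    | succ j h1 ih =>
      intro h2 X hX hXN
      obtain ⟨X₀, hX₀, hX₀H⟩ := exists_inf hXN hHN
      obtain ⟨X₁, hbX₁, hX₁⟩ := exists_inc_between (l := j) h1 (Nat.le_succ j) hX
      have hne : X₀ ≠ X₁ := by
        rintro rfl
        exact hbM (hbX₁.trans (hX₀H.trans hH₁))
      exact ep_join hσ (hH.col j h1 (by omega) X₀ X₁ X hne hX₀ hX₁)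
        (hH.flg j h1 (by omega) X₀ X hX₀) (hH.flg j h1 (by omega) X₁ X hX₁)
        (ep_inc hσ hH h1 le_rfl (hX₀H.trans hH₁)) (ih (by omega) X₁ hbX₁ (hX₁.trans hXN))
  have s4 : EP (G (s + 1) M) (G (s + 1) N) := 
    ep_symmF hF' (s3 (s + 1) (by omega) le_rfl N hbN le_rfl)
  have hne : N ≠ M := fun h => hbM (h ▸ hbN)
  intro ζ _
  refine tot_vec (G (s + 1) N) (G (s + 1) M) (hH.top N M hne ⟨H, hHN, hH₁⟩) ζ fun a c hac => ?_
  exact congrArg (fun S : K →L[ℂ] K => S ζ) (s4 c a fun x hx y hy hxy =>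
    disjoint_left.1 hac hy ((eq_of_col_maxF hF' hW' hxy).symm ▸ hx))

end Vale.Agent.P092.H541.Wd
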