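import Vale.Agent.P092.H541.Wd.W3

/-!
P092, TEAM P, stage CL-O (helper541): port of helper702's `polS`, `polT` to the forms of every
kind (`Fo` of helper370).
-/

set_option linter.all false

open TopologicalSpace Topology Module Set Filter
open scoped Matrix

namespace Vale.Agent.P092.H541.Wd

open Vale.Agent.P092.H303 (FormGroup)
open Vale.Agent.P092.H370.Po hiding sing_sup_span exists_prod exists_inc_ge exists_above
  exists_extend exists_iso_prod
open Vale.Agent.P092.H370.Fo (Fo Wf ort_symm sing_sup_span exists_prod exists_inc_ge exists_above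
  le_finrank_perp exists_extend exists_iso_prod)
open Vale.Agent.P092.H714.Cl
open Vale.Agent.P092.H702.PG (sup_eq ort_join uniq)
open Vale.Agent.P092.H702.Pol (Adj exists_two)

section src

variable {n : Type} [Fintype n] [DecidableEq n] {k : Type} [Field k]
  {σ : k →+* k} {ε : k} {J : Matrix n n k} {i j l : ℕ}

/-- adding a vector -/
def adF (hF : Fo σ ε J) (X : SGr σ J j) {v : n → k} (hv : hf σ J v v = 0)
    (hp : ∀ x ∈ X.S, hf σ J x v = 0) (hn : v ∉ X.S) : SGr σ J (j + 1) :=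
  SGr.mk' (X.S ⊔ Submodule.span k {v}) (sing_sup_span hF X.sing hv hp)
    (by rw [finrank_sup_span hn, X.dim])

theorem inc_adF (hF : Fo σ ε J) (X : SGr σ J j) {v : n → k} (hv : hf σ J v v = 0)
    (hp : ∀ x ∈ X.S, hf σ J x v = 0) (hn : v ∉ X.S) : Inc X (adF hF X hv hp hn) :=
  (le_sup_left : X.S ≤ X.S ⊔ Submodule.span k {v})

theorem mem_adF (hF : Fo σ ε J) (X : SGr σ J j) {v : n → k} (hv : hf σ J v v = 0)
    (hp : ∀ x ∈ X.S, hf σ J x v = 0) (hn : v ∉ X.S) : v ∈ (adF hF X hv hp hn).S :=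
  (le_sup_right : Submodule.span k {v} ≤ X.S ⊔ Submodule.span k {v})
    (Submodule.mem_span_singleton_self v)

theorem ad_inc_adF (hF : Fo σ ε J) {X : SGr σ J j} {Y : SGr σ J l} (h : Inc X Y) {v : n → k}
    (hv : hf σ J v v = 0) (hp : ∀ x ∈ X.S, hf σ J x v = 0) (hn : v ∉ X.S)
    (hp' : ∀ x ∈ Y.S, hf σ J x v = 0) (hn' : v ∉ Y.S) :
    Inc (adF hF X hv hp hn) (adF hF Y hv hp' hn') :=
  (sup_le_sup_right h _ : X.S ⊔ Submodule.span k {v} ≤ Y.S ⊔ Submodule.span k {v})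

/-- **squares**: two non-orthogonal `(j+1)`-spaces with a common `j`-space, `j + 1` smaller than
the Witt index -/
theorem exists_sqF (hF : Fo σ ε J) {r : ℕ} (hr : j + 1 < r) (Y : SGr σ J r) {A : SGr σ J j}
    {B B' : SGr σ J (j + 1)} (hB : Inc A B) (hB' : Inc A B') (hn : ¬ Col B B') :
    ∃ C C' : SGr σ J (j + 1), ∃ N N' M M' : SGr σ J (j + 1 + 1), Inc B N ∧ Inc C N ∧ Inc B' N' ∧
      Inc C N' ∧ Inc B M ∧ Inc C' M ∧ Inc B' M' ∧ Inc C' M' ∧ ¬ Col N M ∧ ¬ Col N' M' ∧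
      ¬ Col N N' := by
  obtain ⟨b, hbA, hbe⟩ := exists_gen hB A.dim B.dim
  obtain ⟨b', hbA', hbe'⟩ := exists_gen hB' A.dim B'.dim
  have hbB : b ∈ B.S := by
    rw [hbe]
    exact (le_sup_right : Submodule.span k {b} ≤ _) (Submodule.mem_span_singleton_self b)
  have hbB' : b' ∈ B'.S := by
    rw [hbe']
    exact (le_sup_right : Submodule.span k {b'} ≤ _) (Submodule.mem_span_singleton_self b')
  have hAb : ∀ x ∈ A.S, hf σ J x b = 0 := fun x hx => B.sing x (hB hx) b hbB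
  have hAb' : ∀ x ∈ A.S, hf σ J x b' = 0 := fun x hx => B'.sing x (hB' hx) b' hbB'
  have hbb : hf σ J b b = 0 := B.sing.zero hbB
  have hne : hf σ J b b' ≠ 0 := by
    intro h0
    refine hn ?_
    change Ort σ J B.S B'.S
    rw [hbe, hbe']
    refine ort_sup_left.2 ⟨ort_sup_right.2 ⟨A.sing, ort_span_right.2 hAb'⟩,
      ort_sup_right.2 ⟨?_, ?_⟩⟩
    · exact ort_span_left.2 fun y hy => hF.fm.symm0 (hAb y hy)
    · refine ort_span_left.2 fun y hy => ?_
      obtain ⟨a, rfl⟩ := Submodule.mem_span_singleton.1 hy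
      rw [hf_smul_right, h0, mul_zero]
  have hne' : hf σ J b' b ≠ 0 := fun h => hne (hF.fm.symm0 h)
  -- the vector `c`
  obtain ⟨v, hvB, hvv, hvp⟩ := exists_extend hF B.sing Y.sing (by rw [B.dim, Y.dim]; omega)
  have hbv : hf σ J b v = 0 := hvp b hbB
  have hvb : hf σ J v b = 0 := hF.fm.symm0 hbv
  set t : k := hf σ J v b' * (hf σ J b b')⁻¹ with ht
  set c : n → k := v + (-t) • b with hc
  have hcb' : hf σ J c b' = 0 := by
    rw [hc, hf_add_left, hf_smul_left, ht, neg_mul, mul_assoc, inv_mul_cancel₀ hne, mul_one,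
      add_neg_cancel]
  have hBc : ∀ x ∈ B.S, hf σ J x c = 0 := by
    intro x hx
    rw [hc, hf_add_right, hf_smul_right, hvp x hx, B.sing x hx b hbB, mul_zero, add_zero]
  have hcB : c ∉ B.S := by
    intro h
    refine hvB ?_
    have e : v = c + t • b := by rw [hc, neg_smul]; abel
    rw [e]
    exact B.S.add_mem h (B.S.smul_mem _ hbB)
  have hcc : hf σ J c c = 0 := by
    have e1 : hf σ J c v = 0 := by
      rw [hc, hf_add_left, hf_smul_left, hvv, hbv, mul_zero, add_zero]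
    have e2 : hf σ J c b = 0 := hF.fm.symm0 (hBc b hbB)
    have e3 : hf σ J c (v + (-t) • b) = 0 := by
      rw [hf_add_right, hf_smul_right, e1, e2, mul_zero, add_zero]
    rwa [← hc] at e3
  have hAc : ∀ x ∈ A.S, hf σ J x c = 0 := fun x hx => hBc x (hB hx)
  have hcA : c ∉ A.S := fun h => hcB (hB h)
  have hcb : hf σ J c b = 0 := hF.fm.symm0 (hBc b hbB)
  have hB'c : ∀ x ∈ B'.S, hf σ J x c = 0 := by
    intro x hx
    rw [hbe'] at hx
    obtain ⟨a, ha, y, hy, rfl⟩ := Submodule.mem_sup.1 hx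
    obtain ⟨s, rfl⟩ := Submodule.mem_span_singleton.1 hy
    rw [hf_add_left, hf_smul_left, hAc a ha, hF.fm.symm0 hcb', mul_zero, add_zero]
  have hcB' : c ∉ B'.S := by
    intro h
    rw [hbe'] at h
    obtain ⟨a, ha, y, hy, hay⟩ := Submodule.mem_sup.1 h
    obtain ⟨s, rfl⟩ := Submodule.mem_span_singleton.1 hy
    have e1 : hf σ J b c = 0 := hBc b hbB
    rw [← hay, hf_add_right, hf_smul_right, hF.fm.symm0 (hAb a ha), zero_add] at e1
    have e2 : s = 0 := by
      have := (mul_eq_zero.1 e1).resolve_right hne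
      rwa [map_eq_zero] at this
    rw [e2, zero_smul, add_zero] at hay
    exact hcA (hay ▸ ha)
  set N := adF hF B hcc hBc hcB with hN
  -- the vector `c'`
  obtain ⟨φ, hφ1, hφ0⟩ := exists_functional (X := N.S) (H := B.S) (inc_adF hF B hcc hBc hcB)
    (mem_adF hF B hcc hBc hcB) hcB
  obtain ⟨z, hzz, hz⟩ := exists_iso_prod hF N.sing φ (fun h => by
    rw [h] at hφ1
    exact zero_ne_one hφ1)
  have hcz : hf σ J c z = 1 := (hz ⟨c, mem_adF hF B hcc hBc hcB⟩).trans hφ1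
  have hBz : ∀ x ∈ B.S, hf σ J x z = 0 := fun x hx =>
    (hz ⟨x, inc_adF hF B hcc hBc hcB hx⟩).trans (hφ0 _ hx)
  have hzb : hf σ J z b = 0 := hF.fm.symm0 (hBz b hbB)
  set s : k := σ (-(hf σ J b' z * (hf σ J b' b)⁻¹)) with hs
  have hsσ : σ s = -(hf σ J b' z * (hf σ J b' b)⁻¹) := by rw [hs, hF.fm.inv]
  set c' : n → k := z + s • b with hc'
  have hb'c' : hf σ J b' c' = 0 := by
    rw [hc', hf_add_right, hf_smul_right, hsσ, neg_mul, mul_assoc, inv_mul_cancel₀ hne',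
      mul_one, add_neg_cancel]
  have hBc' : ∀ x ∈ B.S, hf σ J x c' = 0 := by
    intro x hx
    rw [hc', hf_add_right, hf_smul_right, hBz x hx, B.sing x hx b hbB, mul_zero, add_zero]
  have hAc' : ∀ x ∈ A.S, hf σ J x c' = 0 := fun x hx => hBc' x (hB hx)
  have hcc' : hf σ J c c' = 1 := by
    rw [hc', hf_add_right, hf_smul_right, hcz, hcb, mul_zero, add_zero]
  have hc'c' : hf σ J c' c' = 0 := by
    have e1 : hf σ J c' z = 0 := by
      rw [hc', hf_add_left, hf_smul_left, hzz, hBz b hbB, mul_zero, add_zero]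
    have e2 : hf σ J c' b = 0 := hF.fm.symm0 (hBc' b hbB)
    have e3 : hf σ J c' (z + s • b) = 0 := by
      rw [hf_add_right, hf_smul_right, e1, e2, mul_zero, add_zero]
    rwa [← hc'] at e3
  have hB'c' : ∀ x ∈ B'.S, hf σ J x c' = 0 := by
    intro x hx
    rw [hbe'] at hx
    obtain ⟨a, ha, y, hy, rfl⟩ := Submodule.mem_sup.1 hx
    obtain ⟨s, rfl⟩ := Submodule.mem_span_singleton.1 hy
    rw [hf_add_left, hf_smul_left, hAc' a ha, hb'c', mul_zero, add_zero]
  have hc'B : c' ∉ B.S := by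
    intro h
    have e := hF.fm.symm0 (hBc c' h)
    rw [hcc'] at e
    exact one_ne_zero e
  have hc'B' : c' ∉ B'.S := by
    intro h
    have e := hF.fm.symm0 (hB'c c' h)
    rw [hcc'] at e
    exact one_ne_zero e
  have hc'A : c' ∉ A.S := fun h => hc'B (hB h)
  refine ⟨adF hF A hcc hAc hcA, adF hF A hc'c' hAc' hc'A, N, adF hF B' hcc hB'c hcB',
    adF hF B hc'c' hBc' hc'B, adF hF B' hc'c' hB'c' hc'B', inc_adF _ _ _ _ _,
    ad_inc_adF hF hB _ _ _ _ _, inc_adF _ _ _ _ _, ad_inc_adF hF hB' _ _ _ _ _,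
    inc_adF _ _ _ _ _, ad_inc_adF hF hB _ _ _ _ _, inc_adF _ _ _ _ _,
    ad_inc_adF hF hB' _ _ _ _ _, fun h => ?_, fun h => ?_, fun h => ?_⟩
  · have e := h c (mem_adF _ _ _ _ _) c' (mem_adF _ _ _ _ _)
    rw [hcc'] at e
    exact one_ne_zero e
  · have e := h c (mem_adF _ _ _ _ _) c' (mem_adF _ _ _ _ _)
    rw [hcc'] at e
    exact one_ne_zero e
  · exact hne (h b (inc_adF hF B hcc hBc hcB hbB) b' (inc_adF hF B' hcc hB'c hcB' hbB'))

/-- **source**: `PolS` -/
theorem polSF (hF : Fo σ ε J) {r : ℕ} (hW : WI σ J r) :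
    H831.PolS r (SGr σ J) (fun j => Inc (i := j) (j := j + 1)) (fun j => Col (i := j) (j := j))
      Adj where
  adj1 B B' := ⟨SGr.mk' (j := 1 - 1) ⊥ sing_bot (finrank_bot k (n → k)), bot_le, bot_le⟩
  adj j _ _ C N N' h h' := ⟨C, h, h'⟩
  refl j B := B.sing
  sing j _ _ B B' N h h' := fun x hx y hy => N.sing x (h hx) y (h' hy)
  col := by
    intro j hj hjr B B' hA hne hP
    obtain ⟨m, rfl⟩ : ∃ m, j = m + 1 := ⟨j - 1, by omega⟩
    obtain ⟨X, h1, h2⟩ := hA
    exact join_of_colF (j := m) (a := X) hF hne h1 h2 hP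
  sq := by
    intro j hj hjr B B' hA hn
    obtain ⟨m, rfl⟩ : ∃ m, j = m + 1 := ⟨j - 1, by omega⟩
    obtain ⟨X, h1, h2⟩ := hA
    obtain ⟨⟨Y, hY, hd⟩, -⟩ := hW
    exact exists_sqF (j := m) (A := X) hF hjr (SGr.mk' Y hY hd) h1 h2 hn
  two j hj _ X := exists_two hj X

end src

section tgt

variable {n : Type} [Fintype n] [DecidableEq n] {k : Type} [NontriviallyNormedField k]
  [ProperSpace k] {σ : k →+* k} {ε : k} {J : Matrix n n k}

/-- **target**: `PolT` -/
theorem polTF (hσ : Continuous σ) (hF : Fo σ ε J) {r : ℕ} (hW : WI σ J r) :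
    H831.PolT r (SGr σ J) (fun j => Inc (i := j) (j := j + 1))
      (fun i j => Col (i := i) (j := j)) where
  iclosed j _ _ := inc_closed
  oclosed i j _ _ _ _ := col_closed hσ
  uniq j _ _ x x' y y' hne h1 h2 h3 h4 := uniq hne h1 h2 h3 h4
  join i j _ _ _ _ x x' m w hne h1 h2 h3 h4 := ort_join hne h1 h2 h3 h4
  symm i j _ _ _ _ x y h := ort_symm hF h
  sing j _ _ x := x.sing
  mono i j _ _ _ _ x m w h h' := Ort.mono h' h le_rfl
  max x y h := eq_of_col_maxF hF hW h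

end tgt

end Vale.Agent.P092.H541.Wd
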