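import Vale.Agent.P092.H541.Wd.W3

/-!
P092, TEAM P, stage CL-O (helper541): port of helper796's Wd4 (`words_ne`, `span_wd`) to the forms
of every kind (`Fo` of helper370).
-/

set_option linter.all false

open TopologicalSpace Topology Module Set Filter
open scoped Matrix

namespace Vale.Agent.P092.H541.Wd

open Vale.Agent.P092.H303 (FormGroup)
open Vale.Agent.P092.H370.Po hiding sing_sup_span exists_prod exists_inc_ge exists_above
  exists_extend exists_iso_prod
open Vale.Agent.P092.H370.Fo (Fo Wf ort_symm sing_sup_span exists_prod exists_inc_ge exists_above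
  le_finrank_perp exists_extend exists_iso_prod)
open Vale.Agent.P092.H714.Cl
open Vale.Agent.P092.H218 (mul_ap loc_op)
open Vale.Agent.P092.H232 (Nin split_inc two_ind tsupport_mul_l tsupport_mul_r)
open Vale.Agent.P092.H702.PG (sup_eq ort_join)
open Vale.Agent.P092.H702.Pol (Adj exists_two)
open Vale.Agent.P092.H100.Gr (Gr)
open Vale.Agent.P092.H677 (sm ev_sm ev_sub ind1 ind2 ind5 nin_ev)
open Vale.Agent.P092.H831 (ts_star tot_vec tot_right join_comm comm_self')
open Vale.Agent.P092.H796 (EP ep_self ep_mono ep_join PolH ep_down ep_inc of_pts_loc NP exists_inf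
  QI ZP ZT Ind ind_zero ind_cons ind_cons_of ev_ind wd wd_zero wd_succ wd_comm wd_kill wd_split
  kill_wd C2 indS PlS)

variable {n n' : Type} [Fintype n] [DecidableEq n] [Fintype n'] [DecidableEq n']
  {k : Type} [Field k] {σ : k →+* k} {ε : k} {J : Matrix n n k}
  {k' : Type} [NontriviallyNormedField k'] [ProperSpace k'] {σ' : k' →+* k'}
  [Fact (Continuous σ')] {ε' : k'} {J' : Matrix n' n' k'}
  {K : Type} [NormedAddCommGroup K] [InnerProductSpace ℂ K] [CompleteSpace K] {i j l r m : ℕ}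
  {G : ∀ j, SGr σ J j → (C(SGr σ' J' j, ℂ) →⋆ₐ[ℂ] (K →L[ℂ] K))}

/-- **words in `m` independent letters do not vanish** -/
theorem words_neF [Nontrivial K] (hσ : Continuous σ') (hF : Fo σ ε J) (hW : WI σ J r)
    (hF' : Fo σ' ε' J') (hr : 2 ≤ r) (hH : PolH r G)
    (np : ∀ b b' : SGr σ J 1, ¬ Col b b' → NP (G 1 b) (G 1 b')) (zt : ZT (G 1)) {a a' : SGr σ J 1}
    (haa : ¬ Col a a') : ∀ m, m ≤ Fintype.card n' → ∀ p : Fin m → SGr σ J 1, Ind p →
    (∀ i, Col (p i) a) → (∀ i, Col (p i) a') →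
    ∃ f : Fin m → C(SGr σ' J' 1, ℂ), QI f ∧ wd (fun i => G 1 (p i)) f ≠ 0 := by
  intro m
  induction m with
  | zero =>
    intro _ p _ _ _
    refine ⟨Fin.elim0, fun z _ => ind_zero z, ?_⟩
    rw [wd_zero]
    exact one_ne_zero
  | succ m ih =>
    intro hm p hp h1 h2
    rw [← Fin.cons_self_tail p] at hp
    obtain ⟨hp1, hp2⟩ := ind_cons.1 hp
    have tot := (zt a a' haa m (fun i => p i.succ) (fun i => h1 i.succ) (fun i => h2 i.succ)
      (ih (by omega) (fun i => p i.succ) hp1 (fun i => h1 i.succ) (fun i => h2 i.succ))).1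
    have hort : ∀ {y : SGr σ J 1}, (∀ i, Col (p (Fin.succ i)) y) →
        Ort σ J (⨆ i, (p (Fin.succ i)).S) y.S := by
      intro y hy v hv w hw
      induction hv using Submodule.iSup_induction' with
      | mem i v hv => exact hy i v hv w hw
      | zero => exact hf_zero_left σ J w
      | add u v _ _ hu hv => rw [hf_add_left, hu, hv, add_zero]
    obtain ⟨q, hq, hpq⟩ := exists_testF hF (hort fun i => h1 i.succ) (hort fun i => h2 i.succ)
      haa hp2
    have hcq : ∀ i : Fin m, Col (p i.succ) q := fun i =>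
      Ort.mono hq (le_iSup (fun i : Fin m => (p i.succ).S) i) le_rfl
    have cq : ∀ (i : Fin m) g u, Commute (G 1 q g) (G 1 (p i.succ) u) := fun i g u =>
      comm_ptsF hF hr hH (ort_symm hF (hcq i)) g u
    have eq' : ∀ i : Fin m, EP (G 1 q) (G 1 (p i.succ)) := fun i =>
      ep_colF hσ hF hW hF' hH le_rfl le_rfl (ort_symm hF (hcq i))
    by_contra hcon
    push Not at hcon
    have hall : ∀ ζ : K, ζ = 0 := by
      intro ζ
      refine tot ζ fun f hf => ?_
      refine np (p 0) q hpq _ fun f₀ g hn => ?_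
      have key : G 1 (p 0) f₀ * G 1 q g * wd (fun i : Fin m => G 1 (p i.succ)) f = 0 := by
        refine ind2 (fun u v => G 1 (p 0) u * G 1 q v * wd (fun i : Fin m => G 1 (p i.succ)) f)
          (fun u u' v => by simp only [map_add, add_mul])
          (fun u v v' => by simp only [map_add, mul_add, add_mul]) (fun x hx y hy => ?_)
        have hxy : ¬ Col x y := hn x hx y hy
        refine indS (sm {x} ×ˢ sm {y}) (fun q' : C(SGr σ' J' 1, ℂ) × C(SGr σ' J' 1, ℂ) =>
          (LinearMap.mulLeft ℂ (G 1 (p 0) q'.1 * G 1 q q'.2)).compMultilinearMap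
            (wd fun i : Fin m => G 1 (p i.succ))) f fun z hz => ?_
        have hzI : Ind z := hf z hz
        have t1 : Tendsto (fun q' : (C(SGr σ' J' 1, ℂ) × C(SGr σ' J' 1, ℂ)) ×
            (Fin m → C(SGr σ' J' 1, ℂ)) => q'.1.1)
            ((sm {x} ×ˢ sm {y}) ×ˢ (Filter.pi fun i => sm {z i})) (sm {x}) :=
          tendsto_fst.comp tendsto_fst
        have t2 : Tendsto (fun q' : (C(SGr σ' J' 1, ℂ) × C(SGr σ' J' 1, ℂ)) ×
            (Fin m → C(SGr σ' J' 1, ℂ)) => q'.1.2)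
            ((sm {x} ×ˢ sm {y}) ×ˢ (Filter.pi fun i => sm {z i})) (sm {y}) :=
          tendsto_snd.comp tendsto_fst
        have t3 : ∀ i, Tendsto (fun q' : (C(SGr σ' J' 1, ℂ) × C(SGr σ' J' 1, ℂ)) ×
            (Fin m → C(SGr σ' J' 1, ℂ)) => q'.2 i)
            ((sm {x} ×ˢ sm {y}) ×ˢ (Filter.pi fun i => sm {z i})) (sm {z i}) := fun i =>
          (tendsto_eval_pi (fun i => sm {z i}) i).comp tendsto_snd
        by_cases hzy : ∀ i, Col (z i) y
        · have hI : Ind (Fin.cons x z : Fin (m + 1) → SGr σ' J' 1) := ind_cons_of hzI hzy hxy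
          have t4 : Tendsto (fun q' : (C(SGr σ' J' 1, ℂ) × C(SGr σ' J' 1, ℂ)) ×
              (Fin m → C(SGr σ' J' 1, ℂ)) =>
                (Fin.cons q'.1.1 q'.2 : Fin (m + 1) → C(SGr σ' J' 1, ℂ)))
              ((sm {x} ×ˢ sm {y}) ×ˢ (Filter.pi fun i => sm {z i}))
              (Filter.pi fun i => sm {(Fin.cons x z : Fin (m + 1) → SGr σ' J' 1) i}) := by
            refine tendsto_pi.2 fun i => ?_
            refine Fin.cases ?_ (fun i => ?_) i
            · exact t1
            · exact t3 i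
          filter_upwards [t4.eventually (ev_ind hm hI)] with q' hq'
          change G 1 (p 0) q'.1.1 * G 1 q q'.1.2 * wd (fun i : Fin m => G 1 (p i.succ)) q'.2 = 0
          have e1 := hcon _ hq'
          rw [wd_succ] at e1
          have e2 : Commute (G 1 q q'.1.2) (wd (fun i : Fin m => G 1 (p i.succ)) q'.2) :=
            wd_comm fun i => cq i _ _
          rw [mul_assoc, e2.eq, ← mul_assoc]
          have e3 : G 1 (p 0) q'.1.1 * wd (fun i : Fin m => G 1 (p i.succ)) q'.2 = 0 := e1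
          rw [e3, zero_mul]
        · push Not at hzy
          obtain ⟨i, hi⟩ := hzy
          have hyi : ¬ (fun x y : SGr σ' J' 1 => Col x y) y (z i) := fun h => hi (ort_symm hF' h)
          have hc1 : IsClosed {q : SGr σ' J' 1 × SGr σ' J' 1 |
              (fun x y : SGr σ' J' 1 => Col x y) q.1 q.2} := col_closed hσ
          filter_upwards [(t2.prodMk (t3 i)).eventually (nin_ev hc1 hyi)] with q' hq'
          change G 1 (p 0) q'.1.1 * G 1 q q'.1.2 * wd (fun i : Fin m => G 1 (p i.succ)) q'.2 = 0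
          rw [mul_assoc, wd_kill (T := G 1 q q'.1.2) (fun i => cq i _ _) i (eq' i _ _ hq'),
            mul_zero]
      have := congrArg (fun S : K →L[ℂ] K => S ζ) key
      exact this
    obtain ⟨ζ, hζ⟩ := exists_ne (0 : K)
    exact hζ (hall ζ)

/-- **The point `βt` sees only the span of the two values.** -/
theorem span_wdF [Nontrivial K] (hσ : Continuous σ') (hF : Fo σ ε J) (hW : WI σ J r)
    (hF' : Fo σ' ε' J') (hr : 2 ≤ r) (hcard : Fintype.card n' ≤ Fintype.card n)
    (hH : PolH r G) (np : ∀ b b' : SGr σ J 1, ¬ Col b b' → NP (G 1 b) (G 1 b')) (zt : ZT (G 1))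
    {b bt : SGr σ J 1} (hb : ¬ Col bt b) {M : SGr σ J r} (ht : Inc bt M)
    {f₁ f₂ f' : C(SGr σ' J' 1, ℂ)} (h : C(SGr σ' J' r, ℂ))
    (hd : Disjoint (tsupport ⇑f₁) (tsupport ⇑f₂))
    (hn : ∀ x₁ ∈ tsupport ⇑f₁, ∀ x₂ ∈ tsupport ⇑f₂, ∀ x ∈ tsupport ⇑f', ¬ PlS x₁ x₂ x) :
    G 1 b f₁ * G r M h * G 1 b f₂ * G 1 bt f' = 0 := by
  have hb' : ¬ Col b bt := fun h => hb (ort_symm hF h)
  have hYr : ∃ Y₀ : SGr σ J 2, Inc Y₀ M := by
    obtain ⟨Y, hY⟩ := exists_inc_le hr M
    exact ⟨Y, hY⟩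
  obtain ⟨Y₀, -⟩ := hYr
  have hc2 : 2 ≤ Fintype.card n' ∨ Fintype.card n' < 2 := by omega
  -- the letters
  set m := Fintype.card n' - 2 with hm
  have hm2 : m + 2 ≤ Fintype.card n := by
    have h1 : 2 ≤ Fintype.card n := by
      have h2 := Submodule.finrank_le M.S
      rw [M.dim, finrank_fintype_fun_eq_card] at h2
      omega
    omega
  obtain ⟨p, hp, hpb, hpt⟩ := exists_basis_perpF hF Y₀ hb' m hm2
  have tot := (zt b bt hb' m p hpb hpt (words_neF hσ hF hW hF' hr hH np zt hb' m (by omega) p hp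
    hpb hpt)).2
  have cb : ∀ i f g, Commute (G 1 b f) (G 1 (p i) g) := fun i f g =>
    comm_ptsF hF hr hH (ort_symm hF (hpb i)) f g
  have ct : ∀ i f g, Commute (G 1 bt f) (G 1 (p i) g) := fun i f g =>
    comm_ptsF hF hr hH (ort_symm hF (hpt i)) f g
  have eb : ∀ i, EP (G 1 b) (G 1 (p i)) := fun i =>
    ep_colF hσ hF hW hF' hH le_rfl le_rfl (ort_symm hF (hpb i))
  have et : ∀ i, EP (G 1 bt) (G 1 (p i)) := fun i =>
    ep_colF hσ hF hW hF' hH le_rfl le_rfl (ort_symm hF (hpt i))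
  have hδ : ∀ i g, C2 (G 1 b) (G 1 bt) (G 1 (p i) g) := fun i g =>
    ⟨fun u => (cb i u g).symm, fun u => (ct i u g).symm⟩
  have join : ∀ W : K →L[ℂ] K, (∀ u, Commute W (G 1 bt u)) →
      (∀ T, C2 (G 1 b) (G 1 bt) T → Commute W T) → ∀ g, Commute W (G r M g) := by
    intro W w1 w2
    refine join_oppF hF hH hb w1 r (by omega) le_rfl M ht fun q hqM hqb f => w2 _ ⟨fun u => ?_,
      fun u => ?_⟩
    · exact comm_ptsF hF hr hH hqb f u
    · exact comm_ptsF hF hr hH (fun x hx y hy => M.sing x (hqM hx) y (ht hy)) f u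
  refine tot _ fun F hF1 => ?_
  have h5 : ∀ F' : Unit, G 1 b f₁ * G r M h * G 1 b f₂ * G 1 bt f' * wd (fun i => G 1 (p i)) F
      = 0 := by
    intro _
    have h6 : G 1 b f₁ * G r M h * G 1 b f₂ * G 1 bt f' * wd (fun i => G 1 (p i)) F *
        G 1 b 1 * G 1 b 1 = 0 := by
      refine ind5 (fun u v w (a a' : C(SGr σ' J' 1, ℂ)) => G 1 b u * G r M h * G 1 b v * G 1 bt w *
        wd (fun i => G 1 (p i)) F * G 1 b a * G 1 b a') ?_ ?_ ?_ ?_ ?_ ?_
      · intros; simp only [map_add, add_mul, mul_add]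
      · intros; simp only [map_add, add_mul, mul_add]
      · intros; simp only [map_add, add_mul, mul_add]
      · intros; simp only [map_add, add_mul, mul_add]
      · intros; simp only [map_add, add_mul, mul_add]
      intro x₁ hx₁ x₂ hx₂ x hx y hy y' hy'
      have hxx : x₁ ≠ x₂ := fun e => disjoint_left.1 hd hx₁ (e ▸ hx₂)
      have hPl : ¬ PlS x₁ x₂ x := hn x₁ hx₁ x₂ hx₂ x hx
      have key : ∀ᶠ q' in sm {x₁} ×ˢ sm {x₂} ×ˢ sm {x},
          G 1 b q'.1 * G r M h * G 1 b q'.2.1 * G 1 bt q'.2.2 * wd (fun i => G 1 (p i)) F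
            = 0 := by
        refine indS (sm {x₁} ×ˢ sm {x₂} ×ˢ sm {x})
          (fun q' : C(SGr σ' J' 1, ℂ) × C(SGr σ' J' 1, ℂ) × C(SGr σ' J' 1, ℂ) =>
          (LinearMap.mulLeft ℂ (G 1 b q'.1 * G r M h * G 1 b q'.2.1 *
            G 1 bt q'.2.2)).compMultilinearMap (wd fun i => G 1 (p i))) F fun z hz => ?_
        have hzI : Ind z := hF1 z hz
        have t1 : Tendsto (fun q' : (C(SGr σ' J' 1, ℂ) × C(SGr σ' J' 1, ℂ) ×
            C(SGr σ' J' 1, ℂ)) × (Fin m → C(SGr σ' J' 1, ℂ)) => q'.1.1)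
            ((sm {x₁} ×ˢ sm {x₂} ×ˢ sm {x}) ×ˢ (Filter.pi fun i => sm {z i})) (sm {x₁}) :=
          tendsto_fst.comp tendsto_fst
        have t2 : Tendsto (fun q' : (C(SGr σ' J' 1, ℂ) × C(SGr σ' J' 1, ℂ) ×
            C(SGr σ' J' 1, ℂ)) × (Fin m → C(SGr σ' J' 1, ℂ)) => q'.1.2.1)
            ((sm {x₁} ×ˢ sm {x₂} ×ˢ sm {x}) ×ˢ (Filter.pi fun i => sm {z i})) (sm {x₂}) :=
          tendsto_fst.comp (tendsto_snd.comp tendsto_fst)
        have t3 : Tendsto (fun q' : (C(SGr σ' J' 1, ℂ) × C(SGr σ' J' 1, ℂ) ×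
            C(SGr σ' J' 1, ℂ)) × (Fin m → C(SGr σ' J' 1, ℂ)) => q'.1.2.2)
            ((sm {x₁} ×ˢ sm {x₂} ×ˢ sm {x}) ×ˢ (Filter.pi fun i => sm {z i})) (sm {x}) :=
          tendsto_snd.comp (tendsto_snd.comp tendsto_fst)
        have t4 : ∀ i, Tendsto (fun q' : (C(SGr σ' J' 1, ℂ) × C(SGr σ' J' 1, ℂ) ×
            C(SGr σ' J' 1, ℂ)) × (Fin m → C(SGr σ' J' 1, ℂ)) => q'.2 i)
            ((sm {x₁} ×ˢ sm {x₂} ×ˢ sm {x}) ×ˢ (Filter.pi fun i => sm {z i})) (sm {z i}) :=
          fun i => (tendsto_eval_pi (fun i => sm {z i}) i).comp tendsto_snd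
        have hc1 : IsClosed {q : SGr σ' J' 1 × SGr σ' J' 1 |
            (fun x y : SGr σ' J' 1 => Col x y) q.1 q.2} := col_closed hσ
        have e0 : ∀ (q' : (C(SGr σ' J' 1, ℂ) × C(SGr σ' J' 1, ℂ) ×
            C(SGr σ' J' 1, ℂ)) × (Fin m → C(SGr σ' J' 1, ℂ))),
            ((LinearMap.mulLeft ℂ (G 1 b q'.1.1 * G r M h * G 1 b q'.1.2.1 *
            G 1 bt q'.1.2.2)).compMultilinearMap (wd fun i => G 1 (p i))) q'.2 =
            G 1 b q'.1.1 * G r M h * G 1 b q'.1.2.1 * G 1 bt q'.1.2.2 *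
              wd (fun i => G 1 (p i)) q'.2 := fun q' => rfl
        by_cases k1 : ∀ i, Col x₁ (z i)
        swap
        · push Not at k1
          obtain ⟨i, hi⟩ := k1
          filter_upwards [(t1.prodMk (t4 i)).eventually (nin_ev hc1 hi)] with q' hq'
          rw [e0]
          obtain ⟨A, hA, B, hB, hAB⟩ := wd_split (fun i => G 1 (p i)) q'.2 i
            {T | C2 (G 1 b) (G 1 bt) T} C2.one (fun A hA B hB => hA.mul hB)
            (fun i f => hδ i f)
          have e1 := kill_wd (fun g => hδ i g) join (f₁ := q'.1.1) q'.1.2.1 h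
            (S := {g | Nin (fun x y : SGr σ' J' 1 => Col x y) q'.1.1 g})
            (fun g hg x hx y hy => hg x hx y (by rwa [ts_star] at hy))
            (fun g hg => eb i _ _ hg) (T := A) hA (g' := q'.2 i) hq'
          have e2 : C2 (G 1 b) (G 1 bt) (wd (fun i => G 1 (p i)) q'.2) :=
            ⟨fun u => (wd_comm fun i => cb i u _).symm, fun u => (wd_comm fun i => ct i u _).symm⟩
          have e3 : A * G 1 (p i) (q'.2 i) * B * G 1 bt q'.1.2.2 =
              G 1 bt q'.1.2.2 * (A * G 1 (p i) (q'.2 i) * B) := by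
            have := (e2.2 q'.1.2.2).eq
            rw [hAB] at this
            exact this
          have e4 : G 1 b q'.1.1 * G r M h * G 1 b q'.1.2.1 * (A * G 1 (p i) (q'.2 i)) = 0 := by
            rw [← mul_assoc]; exact e1
          calc G 1 b q'.1.1 * G r M h * G 1 b q'.1.2.1 * G 1 bt q'.1.2.2 *
                wd (fun i => G 1 (p i)) q'.2
              = G 1 b q'.1.1 * G r M h * G 1 b q'.1.2.1 * (G 1 bt q'.1.2.2 *
                (A * G 1 (p i) (q'.2 i) * B)) := by rw [hAB]; simp only [mul_assoc]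
            _ = G 1 b q'.1.1 * G r M h * G 1 b q'.1.2.1 * (A * G 1 (p i) (q'.2 i)) *
                (B * G 1 bt q'.1.2.2) := by rw [← e3]; simp only [mul_assoc]
            _ = 0 := by rw [e4, zero_mul]
        by_cases k2 : ∀ i, Col x₂ (z i)
        swap
        · push Not at k2
          obtain ⟨i, hi⟩ := k2
          filter_upwards [(t2.prodMk (t4 i)).eventually (nin_ev hc1 hi)] with q' hq'
          rw [e0]
          have e1 := wd_kill (T := G 1 b q'.1.2.1) (p := fun i => G 1 (p i)) (f := q'.2)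
            (fun i => cb i _ _) i (eb i _ _ hq')
          have e2 : Commute (G 1 bt q'.1.2.2) (wd (fun i => G 1 (p i)) q'.2) :=
            wd_comm fun i => ct i _ _
          rw [mul_assoc, e2.eq, mul_assoc, ← mul_assoc (G 1 b q'.1.2.1), e1, zero_mul, mul_zero]
        by_cases k3 : ∀ i, Col x (z i)
        swap
        · push Not at k3
          obtain ⟨i, hi⟩ := k3
          filter_upwards [(t3.prodMk (t4 i)).eventually (nin_ev hc1 hi)] with q' hq'
          rw [e0]
          have e1 := wd_kill (T := G 1 bt q'.1.2.2) (p := fun i => G 1 (p i)) (f := q'.2)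
            (fun i => ct i _ _) i (et i _ _ hq')
          rw [mul_assoc, e1, mul_zero]
        exact (hPl (pls_of_indF hF' (by omega) hzI hxx (fun i => ort_symm hF' (k1 i))
          (fun i => ort_symm hF' (k2 i)) (fun i => ort_symm hF' (k3 i)))).elim
      have t5 : Tendsto (fun q' : C(SGr σ' J' 1, ℂ) × C(SGr σ' J' 1, ℂ) × C(SGr σ' J' 1, ℂ) ×
          C(SGr σ' J' 1, ℂ) × C(SGr σ' J' 1, ℂ) => (q'.1, q'.2.1, q'.2.2.1))
          (sm {x₁} ×ˢ sm {x₂} ×ˢ sm {x} ×ˢ sm {y} ×ˢ sm {y'}) (sm {x₁} ×ˢ sm {x₂} ×ˢ sm {x}) :=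
        tendsto_fst.prodMk ((tendsto_fst.comp tendsto_snd).prodMk
          (tendsto_fst.comp (tendsto_snd.comp tendsto_snd)))
      filter_upwards [t5.eventually key] with q' hq'
      have hq'' : G 1 b q'.1 * G r M h * G 1 b q'.2.1 * G 1 bt q'.2.2.1 *
        wd (fun i => G 1 (p i)) F = 0 := hq'
      rw [hq'', zero_mul, zero_mul]
    rwa [map_one, mul_one, mul_one] at h6
  exact h5 ()

end Vale.Agent.P092.H541.Wd
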