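import Vale.Agent.P092.H796.Wd5
import Vale.Agent.P092.H541.Wd.W4
import Vale.Agent.P092.H541.Wd.Pol

/-!
P092, TEAM P, stage CL-O (helper541): port of helper796's Wd5 to the forms of every kind
(`Fo` of helper370): **ONE KEY IS ENOUGH, EVERY FORM, EVERY WITT INDEX `r ≥ 2`** (`all_commF`).
-/

set_option linter.all false

open TopologicalSpace Topology Module Set Filter
open scoped Matrix

namespace Vale.Agent.P092.H541.Wd

open Vale.Agent.P092.H303 (FormGroup)
open Vale.Agent.P092.H370.Po hiding sing_sup_span exists_prod exists_inc_ge exists_above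
  exists_extend exists_iso_prod
open Vale.Agent.P092.H370.Fo (Fo Wf ort_symm sing_sup_span exists_prod exists_inc_ge exists_above
  le_finrank_perp exists_extend exists_iso_prod)
open Vale.Agent.P092.H714.Cl
open Vale.Agent.P092.H218 (mul_ap loc_op)
open Vale.Agent.P092.H232 (Nin split_inc two_ind tsupport_mul_l tsupport_mul_r)
open Vale.Agent.P092.H702.PG (sup_eq ort_join)
open Vale.Agent.P092.H702.Pol (Adj exists_two)
open Vale.Agent.P092.H100.Gr (Gr)
open Vale.Agent.P092.H677 (sm ev_sm ev_sub ind1 ind2 ind5 nin_ev)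
open Vale.Agent.P092.H831 (ts_star tot_vec tot_right join_comm comm_self')
open Vale.Agent.P092.H796 (EP ep_self ep_mono ep_join PolH ep_down ep_inc of_pts_loc NP exists_inf
  QI ZP ZT Ind ind_zero ind_cons ind_cons_of ev_ind wd wd_zero wd_succ wd_comm wd_kill wd_split
  kill_wd C2 indS PlS PlS_closed PGeo0 opp_end)

variable {n n' : Type} [Fintype n] [DecidableEq n] [Fintype n'] [DecidableEq n']
  {k : Type} [Field k] {σ : k →+* k} {ε : k} {J : Matrix n n k}
  {k' : Type} [NontriviallyNormedField k'] [ProperSpace k'] {σ' : k' →+* k'}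
  [Fact (Continuous σ')] {ε' : k'} {J' : Matrix n' n' k'}
  {K : Type} [NormedAddCommGroup K] [InnerProductSpace ℂ K] [CompleteSpace K] {i j l r m : ℕ}
  {G : ∀ j, SGr σ J j → (C(SGr σ' J' j, ℂ) →⋆ₐ[ℂ] (K →L[ℂ] K))}

/-- the span geometry of the points of any form -/
theorem pgeo0_ptsF (hF' : Fo σ' ε' J') :
    PGeo0 (fun x y : SGr σ' J' 1 => Col x y) (PlS (J := J')) where
  cP := col_closed Fact.out
  cPl := PlS_closed
  sym x y h := ort_symm hF' h
  two x₁ x₂ x x' h1 h2 h3 h4 h5 := pls_twoF hF' h1 h2 h3 h4 h5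
  iso x₁ x₂ x h1 h2 h3 := pls_isoF hF' h1 h2 h3

/-- **a point and a maximal space commute** -/
theorem opp_maxF (hF : Fo σ ε J) (hW : WI σ J r) (hF' : Fo σ' ε' J') (hW' : WI σ' J' r)
    (hr : 2 ≤ r) (hcard : Fintype.card n' ≤ Fintype.card n) (hH : PolH r G) (zp : ZP (G 1))
    (zt : ZT (G 1)) (b : SGr σ J 1) (M : SGr σ J r) (f h) :
    Commute (G 1 b f) (G r M h) := by
  have hσ : Continuous σ' := Fact.out
  rcases subsingleton_or_nontrivial K with hK | hK
  · change G 1 b f * G r M h = G r M h * G 1 b f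
    ext ζ
    exact Subsingleton.elim _ _
  by_cases hb : Inc b M
  · exact of_pts_loc hH r (by omega) le_rfl M (fun p hp u => comm_ptsF hF hr hH
      (fun x hx y hy => M.sing x (hb hx) y (hp hy)) f u) h
  have np : ∀ b b' : SGr σ J 1, ¬ Col b b' → NP (G 1 b) (G 1 b') := fun b b' hbb =>
    np_ofF hσ hF hW hF' hW' hr hH hbb (zp b b' hbb)
  obtain ⟨b₀, b₁, h01, h0, h1, n0, n1⟩ := exists_two_oppF hF hr hW hb
  have hcol : Col b₀ b₁ := fun x hx y hy => M.sing x (h0 hx) y (h1 hy)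
  obtain ⟨z, h2, h3⟩ := join_of_colF (j := 0)
    (a := SGr.mk' (σ := σ) (J := J) ⊥ sing_bot (finrank_bot k (n → k))) hF h01 bot_le bot_le hcol
  exact opp_end (pgeo0_ptsF hF') (μ := G r M)
    ⟨fun f g => comm_ptsF hF hr hH hcol f g, ep_colF hσ hF hW hF' hH le_rfl le_rfl hcol⟩
    (hH.col 1 le_rfl (by omega) b₀ b₁ z h01 h2 h3).agr
    (fun f₁ f₂ f' h hd hn => span_wdF hσ hF hW hF' hr hcard hH np zt n0 h0 h hd hn)
    (fun f₁ f₂ f' h hd hn => span_wdF hσ hF hW hF' hr hcard hH np zt n1 h1 h hd hn)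
    (np b₀ b n0) f h

/-- the fields of `H831.PolF` -/
theorem polF_ofF (hF : Fo σ ε J) (hW : WI σ J r) (hF' : Fo σ' ε' J') (hW' : WI σ' J' r)
    (hr : 2 ≤ r) (hcard : Fintype.card n' ≤ Fintype.card n) (hH : PolH r G) (zp : ZP (G 1))
    (zt : ZT (G 1)) :
    H831.PolF r (fun j => Inc (i := j) (j := j + 1)) (fun j => Inc (i := j) (j := j + 1))
      Adj G where
  flg := hH.flg
  col := hH.col
  top B B' hne hA := ⟨fun u v => (of_pts_loc hH r (by omega) le_rfl B (fun p _ f =>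
    (opp_maxF hF hW hF' hW' hr hcard hH zp zt p B' f v).symm) u).symm, hH.top B B' hne hA⟩

/-- **ALL CALCULI COMMUTE**, every form, every Witt index `r ≥ 2`. -/
theorem all_commF (hF : Fo σ ε J) (hW : WI σ J r) (hF' : Fo σ' ε' J') (hW' : WI σ' J' r)
    (hr : 2 ≤ r) (hcard : Fintype.card n' ≤ Fintype.card n) (hH : PolH r G) (zp : ZP (G 1))
    (zt : ZT (G 1)) : ∀ i j, 1 ≤ i → i ≤ r → 1 ≤ j → j ≤ r → ∀ (X : SGr σ J i) (X' : SGr σ J j)
      f f', Commute (G i X f) (G j X' f') :=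
  (polF_ofF hF hW hF' hW' hr hcard hH zp zt).all (polTF Fact.out hF' hW') (polSF hF hW) (by omega)

/-- non perpendicular points have nowhere perpendicular values -/
theorem all_npF (hF : Fo σ ε J) (hW : WI σ J r) (hF' : Fo σ' ε' J') (hW' : WI σ' J' r)
    (hr : 2 ≤ r) (hH : PolH r G) (zp : ZP (G 1)) (b b' : SGr σ J 1) (h : ¬ Col b b') :
    NP (G 1 b) (G 1 b') := np_ofF Fact.out hF hW hF' hW' hr hH h (zp b b' h)

end Vale.Agent.P092.H541.Wd
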