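import Vale.Agent.P092.H796.Res
import Vale.Agent.P092.H541.Wd.Pol

/-!
P092, TEAM P, stage CL-O (helper541): port of helper796's Res (the residue of a singular
`(r-2)`-space is a generalised quadrangle) to the forms of every kind (`Fo` of helper370).
-/

set_option linter.all false

open TopologicalSpace Topology Module Set Filter
open scoped Matrix

namespace Vale.Agent.P092.H541.Wd

open Vale.Agent.P092.H303 (FormGroup)
open Vale.Agent.P092.H370.Po hiding sing_sup_span exists_prod exists_inc_ge exists_above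
  exists_extend exists_iso_prod
open Vale.Agent.P092.H370.Fo (Fo Wf ort_symm sing_sup_span exists_prod exists_inc_ge exists_above
  le_finrank_perp exists_extend exists_iso_prod)
open Vale.Agent.P092.H714.Cl
open Vale.Agent.P092.H702.PG (sup_eq ort_join)
open Vale.Agent.P092.H100.Gr (Gr)
open Vale.Agent.P092.SP (GQ)
open Vale.Agent.P092.H796 (RP RL RI TQ PGeo PlS PlS_closed succ_le)

section alg

variable {n : Type} [Fintype n] [DecidableEq n] {k : Type} [Field k]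
  {σ : k →+* k} {ε : k} {J : Matrix n n k} {i j l : ℕ}

/-- every singular `j`-space lies in two different singular `(j+1)`-spaces, if there is a
singular `(j+1)`-space -/
theorem two_upF (hF : Fo σ ε J) (Y : SGr σ J (j + 1)) (X : SGr σ J j) :
    ∃ N N' : SGr σ J (j + 1), Inc X N ∧ Inc X N' ∧ N ≠ N' := by
  obtain ⟨N, hN⟩ := exists_inc_ge hF (Nat.le_succ j) le_rfl X Y
  have h1 : ¬ N.S ≤ X.S := fun h => by
    have := Submodule.finrank_mono h
    rw [X.dim, N.dim] at this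
    omega
  obtain ⟨c, hcN, hcX⟩ := SetLike.not_le_iff_exists.1 h1
  obtain ⟨φ, hφ1, hφ0⟩ := exists_functional (X := N.S) (H := X.S) hN hcN hcX
  obtain ⟨z, hzz, hz⟩ := exists_iso_prod hF N.sing φ (fun h => by
    rw [h] at hφ1
    exact zero_ne_one hφ1)
  have hcz : hf σ J c z = 1 := (hz ⟨c, hcN⟩).trans hφ1
  have hXz : ∀ x ∈ X.S, hf σ J x z = 0 := fun x hx => (hz ⟨x, hN hx⟩).trans (hφ0 _ hx)
  have hzN : z ∉ N.S := fun h => by
    have := N.sing c hcN z h
    rw [hcz] at this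
    exact one_ne_zero this
  have hzX : z ∉ X.S := fun h => hzN (hN h)
  refine ⟨N, adF hF X hzz hXz hzX, hN, inc_adF hF X hzz hXz hzX, fun e => hzN ?_⟩
  rw [e]
  exact mem_adF hF X hzz hXz hzX

/-- no triangles -/
theorem tri_topF (hF : Fo σ ε J) (hW : WI σ J (j + 1)) {x x' z : SGr σ J j}
    {N m m' : SGr σ J (j + 1)} (hn : ¬ Inc z N) (h1 : Inc x m) (h2 : Inc z m) (h3 : Inc x' m')
    (h4 : Inc z m') (h5 : Inc x N) (h6 : Inc x' N) : x = x' := by
  by_contra hne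
  refine hn ?_
  have h7 : Col N z := ort_join hne h5 h6 (fun a ha b hb => m.sing a (h1 ha) b (h2 hb))
    (fun a ha b hb => m'.sing a (h3 ha) b (h4 hb))
  intro v hv
  exact mem_of_maxF hF hW N (z.sing.zero hv) fun x hx => h7 x hx v hv

/-- the foot of a point of the residue on a line -/
theorem foot_resF (hF : Fo σ ε J) (A : SGr σ J j) (x : RP A) (l : RL A) (h : ¬ RI A x l) :
    ∃ (y : RP A) (m : RL A), RI A x m ∧ RI A y m ∧ RI A y l := by
  obtain ⟨b, hbA, hbe⟩ := exists_gen x.2 A.dim x.1.dim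
  have hbx : b ∈ x.1.S := by
    rw [hbe]
    exact (le_sup_right : Submodule.span k {b} ≤ _) (Submodule.mem_span_singleton_self b)
  have hbl : b ∉ l.1.S := by
    intro hb
    refine h ?_
    change x.1.S ≤ l.1.S
    rw [hbe]
    exact sup_le l.2 ((Submodule.span_singleton_le_iff_mem _ _).2 hb)
  let φ : l.1.S →ₗ[k] k :=
    { toFun := fun v => hf σ J v.1 b
      map_add' := fun v w => hf_add_left σ J v.1 w.1 b
      map_smul' := fun c v => hf_smul_left σ J c v.1 b }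
  set Z : Submodule k (n → k) := (LinearMap.ker φ).map l.1.S.subtype with hZ
  have hZl : Z ≤ l.1.S := by
    rintro _ ⟨v, -, rfl⟩
    exact v.2
  have hZb : ∀ v ∈ Z, hf σ J v b = 0 := by
    rintro _ ⟨v, hv, rfl⟩
    exact hv
  have hAZ : A.S ≤ Z := by
    intro v hv
    exact ⟨⟨v, l.2 hv⟩, x.1.sing v (x.2 hv) b hbx, rfl⟩
  have hZd : j + 1 ≤ finrank k Z := by
    have h1 := LinearMap.finrank_range_add_finrank_ker φ
    have h2 : finrank k (LinearMap.range φ) ≤ 1 := by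
      have := Submodule.finrank_le (LinearMap.range φ)
      rwa [finrank_self] at this
    have h3 : finrank k Z = finrank k (LinearMap.ker φ) :=
      (Submodule.equivMapOfInjective _ l.1.S.injective_subtype _).finrank_eq.symm
    have h4 : finrank k l.1.S = j + 1 + 1 := l.1.dim
    omega
  obtain ⟨Y, hY1, hY2, hY3⟩ := exists_between hAZ (j := j + 1) (by rw [A.dim]; omega) hZd
  have hYs : Sing σ J Y := l.1.sing.mono (hY2.trans hZl)
  set y : SGr σ J (j + 1) := SGr.mk' Y hYs hY3 with hy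
  have hyb : ∀ v ∈ y.S, hf σ J v b = 0 := fun v hv => hZb v (hY2 hv)
  have hbb : hf σ J b b = 0 := x.1.sing.zero hbx
  have hby : b ∉ y.S := fun hb => hbl (hZl (hY2 hb))
  have hAy : Inc A y := hY1
  refine ⟨⟨y, hAy⟩, ⟨adF hF y hbb hyb hby, hAy.trans (inc_adF hF y hbb hyb hby)⟩, ?_,
    inc_adF hF y hbb hyb hby, hY2.trans hZl⟩
  change x.1.S ≤ (adF hF y hbb hyb hby).S
  rw [hbe]
  exact sup_le (hAy.trans (inc_adF hF y hbb hyb hby))
    ((Submodule.span_singleton_le_iff_mem _ _).2 (mem_adF hF y hbb hyb hby))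

/-- three points on a line of the residue -/
theorem three_resF (hF : Fo σ ε J) (A : SGr σ J j) (l : RL A) (x : RP A) (hx : RI A x l) :
    ∃ y z : RP A, y ≠ x ∧ z ≠ x ∧ y ≠ z ∧ RI A y l ∧ RI A z l := by
  obtain ⟨b, hbA, hbe⟩ := exists_gen x.2 A.dim x.1.dim
  obtain ⟨c, hcx, hce⟩ := exists_gen hx x.1.dim l.1.dim
  have hbx : b ∈ x.1.S := by
    rw [hbe]
    exact (le_sup_right : Submodule.span k {b} ≤ _) (Submodule.mem_span_singleton_self b)
  have hbl : b ∈ l.1.S := hx hbx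
  have hcl : c ∈ l.1.S := by
    rw [hce]
    exact (le_sup_right : Submodule.span k {c} ≤ _) (Submodule.mem_span_singleton_self c)
  have key : ∀ v ∈ l.1.S, v ∉ A.S → ∃ y : RP A, v ∈ y.1.S ∧ RI A y l ∧
      y.1.S = A.S ⊔ Submodule.span k {v} := by
    intro v hv hvA
    have h1 : hf σ J v v = 0 := l.1.sing.zero hv
    have h2 : ∀ x ∈ A.S, hf σ J x v = 0 := fun x hx => l.1.sing x (l.2 hx) v hv
    exact ⟨⟨adF hF A h1 h2 hvA, inc_adF hF A h1 h2 hvA⟩, mem_adF hF A h1 h2 hvA,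
      sup_le l.2 ((Submodule.span_singleton_le_iff_mem _ _).2 hv), rfl⟩
  obtain ⟨y, hy1, hy2, hy3⟩ := key c hcl fun h => hcx (x.2 h)
  have hbc : b + c ∉ x.1.S := fun h => hcx ((Submodule.add_mem_iff_right _ hbx).1 h)
  obtain ⟨z, hz1, hz2, hz3⟩ := key (b + c) (Submodule.add_mem _ hbl hcl) fun h => hbc (x.2 h)
  refine ⟨y, z, ?_, ?_, ?_, hy2, hz2⟩
  · rintro rfl; exact hcx hy1
  · rintro rfl; exact hbc hz1
  · rintro rfl
    have hby : b ∈ y.1.S := (Submodule.add_mem_iff_left _ hy1).1 hz1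
    have hxy : x.1.S ≤ y.1.S := by
      rw [hbe]
      exact sup_le y.2 ((Submodule.span_singleton_le_iff_mem _ _).2 hby)
    rw [SGr.eq_of_le hxy] at hcx
    exact hcx hy1

/-- **the residue of a space of codimension two is a generalised quadrangle** -/
theorem gq_resF (hF : Fo σ ε J) (hW : WI σ J (j + 1 + 1)) (A : SGr σ J j) : GQ (RI A) where
  uniq x x' y y' h h1 h2 h3 h4 := by
    refine Subtype.ext (H702.PG.uniq (x := x.1) (y := x'.1) (fun e => h (Subtype.ext e)) h1 h2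
      h3 h4)
  tri x x' z N m m' hn h1 h2 h3 h4 h5 h6 :=
    Subtype.ext (tri_topF hF hW hn h1 h2 h3 h4 h5 h6)
  foot x l h := foot_resF hF A x l h
  pt2 l := by
    obtain ⟨Y, h1, h2⟩ := exists_inc_between (i := j) (j := j + 1 + 1) (l := j + 1) (by omega)
      (by omega) l.2
    obtain ⟨y, z, -, -, h5, h6, h7⟩ := three_resF hF A l ⟨Y, h1⟩ h2
    exact ⟨y, z, h5, h6, h7⟩
  ln2 x := by
    obtain ⟨⟨Y, hY, hd⟩, -⟩ := hW
    obtain ⟨N, N', h1, h2, h3⟩ := two_upF hF (SGr.mk' Y hY hd) x.1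
    exact ⟨⟨N, x.2.trans h1⟩, ⟨N', x.2.trans h2⟩, fun e => h3 (congrArg Subtype.val e), h1, h2⟩

end alg

section tgt

variable {n : Type} [Fintype n] [DecidableEq n] {k : Type} [NontriviallyNormedField k]
  [ProperSpace k] {σ : k →+* k} {ε : k} {J : Matrix n n k} {j : ℕ}

theorem tq_topF (hF : Fo σ ε J) (hW : WI σ J (j + 1)) :
    TQ (fun (x : SGr σ J j) (y : SGr σ J (j + 1)) => Inc x y) where
  uniq x x' y y' h h1 h2 h3 h4 := H702.PG.uniq h h1 h2 h3 h4
  tri x x' z N m m' hn h1 h2 h3 h4 h5 h6 := tri_topF hF hW hn h1 h2 h3 h4 h5 h6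

/-- **regular points**: singular spaces of dimension `r - 1` in dimension `2 r` -/
theorem pgeo_topF [Fact (Continuous σ)] (hF : Fo σ ε J) (hW : WI σ J (j + 1))
    (hc : Fintype.card n = 2 * (j + 1)) :
    PGeo (H677.Col fun (x : SGr σ J j) (y : SGr σ J (j + 1)) => Inc x y) (PlS (J := J)) := by
  have plane : ∀ {x y : SGr σ J j}, x ≠ y → ∀ {W : Gr k n (j + 1)}, x.S ≤ W.1 → y.S ≤ W.1 →
      x.S ⊔ y.S = W.1 := by
    intro x y hne W h1 h2
    refine Submodule.eq_of_le_of_finrank_le (sup_le h1 h2) ?_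
    rw [W.2]
    exact succ_le hne
  have colP : ∀ {x y : SGr σ J j}, H677.Col (fun (x : SGr σ J j) (y : SGr σ J (j + 1)) =>
      Inc x y) x y → Col x y := by
    rintro x y ⟨z, h1, h2⟩ a ha b hb
    exact z.sing a (h1 ha) b (h2 hb)
  -- a plane spanned by two orthogonal spaces is singular
  have mk : ∀ {x y : SGr σ J j}, x ≠ y → ∀ {W : Gr k n (j + 1)}, x.S ≤ W.1 → y.S ≤ W.1 →
      Col x y → Sing σ J W.1 := by
    intro x y hne W h1 h2 h
    rw [← plane hne h1 h2]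
    exact ort_sup_left.2 ⟨ort_sup_right.2 ⟨x.sing, h⟩, ort_sup_right.2 ⟨ort_symm hF h, y.sing⟩⟩
  refine ⟨H677.isClosed_col inc_closed, PlS_closed, fun x y => fun ⟨z, h1, h2⟩ => ⟨z, h2, h1⟩,
    ?_, ?_, ?_⟩
  · intro x₁ x₂ x z z' hx hz h1 h2 h3 h4 h5 h6
    have e1 : x₁.S ⊔ x₂.S ⊔ x.S ≤ perp σ J (z.S ⊔ z'.S) := by
      rw [← ort_iff_le_perp]
      exact ort_sup_left.2 ⟨ort_sup_right.2 ⟨ort_sup_right.2 ⟨ort_symm hF (colP h1),
        ort_symm hF (colP h3)⟩, ort_symm hF (colP h5)⟩, ort_sup_right.2 ⟨ort_sup_right.2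
        ⟨ort_symm hF (colP h2), ort_symm hF (colP h4)⟩, ort_symm hF (colP h6)⟩⟩
    have e2 := Submodule.finrank_mono e1
    have e3 := perp_leF hF (z.S ⊔ z'.S)
    have e4 := succ_le hz
    have e5 : j + 1 ≤ finrank k ↥(x₁.S ⊔ x₂.S ⊔ x.S) :=
      (succ_le hx).trans (Submodule.finrank_mono le_sup_left)
    refine ⟨(⟨x₁.S ⊔ x₂.S ⊔ x.S, by omega⟩ : Gr k n (j + 1)), ?_, ?_, ?_⟩
    · exact (le_sup_left.trans le_sup_left : x₁.S ≤ x₁.S ⊔ x₂.S ⊔ x.S)
    · exact (le_sup_right.trans le_sup_left : x₂.S ≤ x₁.S ⊔ x₂.S ⊔ x.S)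
    · exact (le_sup_right : x.S ≤ x₁.S ⊔ x₂.S ⊔ x.S)
  · rintro x₁ x₂ x x' hx hx' ⟨W, a1, a2, a3⟩ ⟨W', b1, b2, b3⟩ h
    have e1 := plane hx a1 a2
    have e2 := plane hx b1 b2
    rw [← e2, e1] at b3
    have hs := mk hx' a3 b3 (colP h)
    exact ⟨SGr.mk' W.1 hs W.2, a1, a2⟩
  · rintro x₁ x₂ x hx ⟨W, a1, a2, a3⟩ h
    have hs := mk hx a1 a2 (colP h)
    exact ⟨⟨SGr.mk' W.1 hs W.2, a3, a1⟩, ⟨SGr.mk' W.1 hs W.2, a3, a2⟩⟩

end tgt

end Vale.Agent.P092.H541.Wd
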