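import Vale.Agent.P092.H796.Res2
import Vale.Agent.P092.H541.Wd.Res

/-!
P092, TEAM P, stage CL-O (helper541): port of helper796's Res2 (adjacent maximal singular
subspaces commute, dimension `2 r`) to the forms of every kind (`Fo` of helper370).
-/

set_option linter.all false

open TopologicalSpace Topology Module Set Filter
open scoped Matrix

namespace Vale.Agent.P092.H541.Wd

open Vale.Agent.P092.H303 (FormGroup)
open Vale.Agent.P092.H370.Po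
open Vale.Agent.P092.H370.Fo (Fo Wf)
open Vale.Agent.P092.H714.Cl
open Vale.Agent.P092.H232 (Nin)
open Vale.Agent.P092.RC (Cm Moore)
open Vale.Agent.P092.H796 (RP RL RI TQ PGeo PlS PlS_closed succ_le CM PL gq_one_p)

section res

variable {n : Type} [Fintype n] [DecidableEq n] {k : Type} [Field k]
  {σ : k →+* k} {ε : k} {J : Matrix n n k} {j : ℕ}
  {n' : Type} [Fintype n'] [DecidableEq n'] {k' : Type} [NontriviallyNormedField k']
  [ProperSpace k'] {σ' : k' →+* k'} {ε' : k'} {J' : Matrix n' n' k'} [Fact (Continuous σ')]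
  {K : Type*} [NormedAddCommGroup K] [InnerProductSpace ℂ K] [CompleteSpace K]

/-- **[P2-II]** the residue of a singular `(r-2)`-space commutes. -/
theorem res_commF (hF : Fo σ ε J) (hW : WI σ J (j + 1 + 1)) (hF' : Fo σ' ε' J')
    (hW' : WI σ' J' (j + 1 + 1)) (hc : Fintype.card n' = 2 * (j + 1 + 1))
    {e : SGr σ J (j + 1) → (C(SGr σ' J' (j + 1), ℂ) →⋆ₐ[ℂ] (K →L[ℂ] K))}
    {F : SGr σ J (j + 1 + 1) → (C(SGr σ' J' (j + 1 + 1), ℂ) →⋆ₐ[ℂ] (K →L[ℂ] K))}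
    (pl : ∀ B N, Inc B N → PL (fun (x : SGr σ' J' (j + 1)) (y : SGr σ' J' (j + 1 + 1)) => Inc x y)
      (e B) (F N))
    (cp : ∀ (N : SGr σ J (j + 1 + 1)) (B B' : SGr σ J (j + 1)), Inc B N → Inc B' N →
      ∀ f g, Commute (e B f) (e B' g))
    (ae : ∀ (A : SGr σ J j) (B B' : SGr σ J (j + 1)), Inc A B → Inc A B' → B ≠ B' →
      ∀ ξ, (∀ φ, e B φ ξ = e B' φ ξ) → ξ = 0)
    (af : ∀ (B : SGr σ J (j + 1)) (N N' : SGr σ J (j + 1 + 1)), Inc B N → Inc B N' → N ≠ N' →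
      ∀ ξ, (∀ φ, F N φ ξ = F N' φ ξ) → ξ = 0)
    (di : ∀ (A : SGr σ J j) (B B' : SGr σ J (j + 1)), Inc A B → Inc A B' → ¬ Col B B' →
      (∀ f f', Nin (CM σ' J' (j + 1)) f f' → e B f * e B' f' = 0) ∨
      ∀ ζ, (∀ f f', Nin (CM σ' J' (j + 1)) f f' → e B f (e B' f' ζ) = 0) → ζ = 0)
    (A : SGr σ J j) :
    (∀ B B' : SGr σ J (j + 1), Inc A B → Inc A B' → ∀ f g, Commute (e B f) (e B' g)) ∧
    (∀ N N' : SGr σ J (j + 1 + 1), Inc A N → Inc A N' → ∀ f g, Commute (F N f) (F N' g)) ∧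
    ∀ (B : SGr σ J (j + 1)) (N : SGr σ J (j + 1 + 1)), Inc A B → Inc A N →
      ∀ f g, Commute (e B f) (F N g) := by
  obtain ⟨h1, h2, h3⟩ := gq_one_p (In := RI A) (e := fun B => e B.1) (F := fun N => F N.1)
    (gq_resF hF hW A) (three_resF hF A) (tq_topF hF' hW') inc_closed (pgeo_topF hF' hW' hc)
    (fun B N h => pl B.1 N.1 h)
    (fun B B' hne => ae A B.1 B'.1 B.2 B'.2 fun h => hne (Subtype.ext h))
    (fun B N N' h h' hne => af B.1 N.1 N'.1 h h' fun h => hne (Subtype.ext h))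
    (fun N B B' h h' f g => cp N.1 B'.1 B.1 h' h f g)
    (fun B B' hop => by
      refine di A B.1 B'.1 B.2 B'.2 fun hcol => ?_
      by_cases hne : B.1 = B'.1
      · obtain ⟨N, hN⟩ := (gq_resF hF hW A).ln2 B
        obtain ⟨N', -, h4, -⟩ := hN
        refine hop N h4 ?_
        change Inc B'.1 N.1
        rw [← hne]
        exact h4
      · obtain ⟨z, h4, h5⟩ := join_of_colF hF hne B.2 B'.2 hcol
        exact hop ⟨z, B.2.trans h4⟩ h4 h5)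
  exact ⟨fun B B' h h' => h1 ⟨B, h⟩ ⟨B', h'⟩, fun N N' h h' => h2 ⟨N, h⟩ ⟨N', h'⟩,
    fun B N h h' => h3 ⟨B, h⟩ ⟨N, h'⟩⟩

/-- **two adjacent maximal singular spaces commute** (field `top.com` of `H831.PolF`) -/
theorem top_commF (hF : Fo σ ε J) (hW : WI σ J (j + 1 + 1)) (hF' : Fo σ' ε' J')
    (hW' : WI σ' J' (j + 1 + 1)) (hc : Fintype.card n' = 2 * (j + 1 + 1))
    {e : SGr σ J (j + 1) → (C(SGr σ' J' (j + 1), ℂ) →⋆ₐ[ℂ] (K →L[ℂ] K))}
    {F : SGr σ J (j + 1 + 1) → (C(SGr σ' J' (j + 1 + 1), ℂ) →⋆ₐ[ℂ] (K →L[ℂ] K))}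
    (pl : ∀ B N, Inc B N → PL (fun (x : SGr σ' J' (j + 1)) (y : SGr σ' J' (j + 1 + 1)) => Inc x y)
      (e B) (F N))
    (cp : ∀ (N : SGr σ J (j + 1 + 1)) (B B' : SGr σ J (j + 1)), Inc B N → Inc B' N →
      ∀ f g, Commute (e B f) (e B' g))
    (ae : ∀ (A : SGr σ J j) (B B' : SGr σ J (j + 1)), Inc A B → Inc A B' → B ≠ B' →
      ∀ ξ, (∀ φ, e B φ ξ = e B' φ ξ) → ξ = 0)
    (af : ∀ (B : SGr σ J (j + 1)) (N N' : SGr σ J (j + 1 + 1)), Inc B N → Inc B N' → N ≠ N' →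
      ∀ ξ, (∀ φ, F N φ ξ = F N' φ ξ) → ξ = 0)
    (di : ∀ (A : SGr σ J j) (B B' : SGr σ J (j + 1)), Inc A B → Inc A B' → ¬ Col B B' →
      (∀ f f', Nin (CM σ' J' (j + 1)) f f' → e B f * e B' f' = 0) ∨
      ∀ ζ, (∀ f f', Nin (CM σ' J' (j + 1)) f f' → e B f (e B' f' ζ) = 0) → ζ = 0)
    {B : SGr σ J (j + 1)} {N N' : SGr σ J (j + 1 + 1)} (h1 : Inc B N) (h2 : Inc B N') (f g) :
    Commute (F N f) (F N' g) := by
  obtain ⟨A, hA⟩ := exists_inc_le (Nat.le_succ j) B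
  exact (res_commF hF hW hF' hW' hc pl cp ae af di A).2.1 N N' (hA.trans h1) (hA.trans h2) f g

end res

end Vale.Agent.P092.H541.Wd
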